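import Vale.Agent.P318.H891.Glue5
import Vale.Agent.P318.H937.Spec

/-!
# P318, Lemma 5: `spec_glue : SpecGLUE`
-/

set_option autoImplicit false

namespace Vale.Agent.P318.H891

open Finset
open scoped BigOperators

section bridge

open scoped Classical

/-- `push` with classical decidability. -/
theorem push_eq {X Y : Type} [Fintype X] [i : DecidableEq Y] (f : X → Y) (μ : X → ZMod 2) :
    H937.push f μ = push f μ := by
  have h : i = fun a b => Classical.propDecidable (a = b) := Subsingleton.elim _ _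
  subst h
  rfl

theorem sz_eq {X : Type} [Fintype X] (μ : X → ZMod 2) : H937.sz μ = (su μ).card := by
  unfold H937.sz su
  congr 1

theorem ex_coe {Sd : Type} (S : Finset Sd) (f : Sd → ℝ) :
    𝔼 c : {x // x ∈ S}, f c = (∑ c ∈ S, f c) / S.card := by
  rw [Fintype.expect_eq_sum_div_card, Fintype.card_coe, sum_coe_sort S f]

theorem cond_of {Sd X X' : Type} [i : DecidableEq X'] {S : Finset Sd} {T : Sd → X → X'} {W : ℕ}
    {e e' : ℝ} (h : H937.Lossless S T W e) (hS : S.Nonempty) (he : e ≤ e') :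
    Cond (fun c : {x // x ∈ S} => T c) e' W := by
  have hi : i = fun a b => Classical.propDecidable (a = b) := Subsingleton.elim _ _
  subst hi
  intro U hU
  have h1 := h U hU
  have hp : (0 : ℝ) < S.card := by exact_mod_cast card_pos.2 hS
  rw [ex_coe S fun c => ((U.image (T c)).card : ℝ), le_div_iff₀ hp]
  have h2 : (0 : ℝ) ≤ (e' - e) * (U.card * S.card) :=
    mul_nonneg (by linarith) (by positivity)
  nlinarith

end bridge

theorem push_sub1 {X : Type} [Fintype X] [Subsingleton X] (f : X → X) (μ : X → ZMod 2) :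
    push f μ = μ := by
  have h : f = fun x => x := by
    funext x
    exact Subsingleton.elim _ _
  rw [h]
  exact push_id μ

open scoped Classical in
theorem spec_glue : H937.SpecGLUE := by
  intro X _ _ Sd _ SA SB SC al be ga n W W0 e hSA hSB hSC hab hac hbc he hen hLa hLb hLc hI hn hE hW
    P Q R hP hQ hR hPQ hPR hQR
  simp only [sz_eq, push_eq] at hP hQ hR hPQ hPR hQR ⊢
  rcases Nat.eq_zero_or_pos n with h0 | hn0
  · -- one point
    have hsub : Subsingleton X := ⟨fun u u' =>
      hI ∅ (empty_subset _) (by omega) u u' fun z hz => absurd hz (notMem_empty z)⟩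
    obtain ⟨b0, hb0⟩ := hSB
    obtain ⟨c0, hc0⟩ := hSC
    simp only [push_sub1] at hPQ hPR hQR ⊢
    refine ⟨P c0, ?_, fun c hc => ?_, fun b hb => hPQ b hb c0 hc0, fun a ha => hPR a ha c0 hc0⟩
    · have h1 : ((su (P c0)).card : ℝ) ≤ W := by exact_mod_cast hP c0 hc0
      have h2 : (0 : ℝ) ≤ (su (P c0)).card := Nat.cast_nonneg _
      nlinarith
    · rw [hPQ b0 hb0 c0 hc0, hPQ b0 hb0 c hc]
  have hn1 : (1 : ℝ) ≤ n := by exact_mod_cast hn0
  obtain ⟨δ, hδ⟩ : ∃ δ : ℝ, δ = (e + 1 / (250 * (n + 1) + 2)) / 2 := ⟨_, rfl⟩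
  have hb : (0 : ℝ) < 250 * (n + 1) + 2 := by positivity
  have he' : e < 1 / (250 * (n + 1) + 2) := by
    rw [lt_div_iff₀ hb]
    linarith
  have hδe : e < δ := by rw [hδ]; linarith
  have hδ0 : 0 < δ := by linarith
  have hδn : (250 * ((n : ℝ) + 1) + 2) * δ < 1 := by
    have h1 : δ < 1 / (250 * (n + 1) + 2) := by rw [hδ]; linarith
    rw [lt_div_iff₀ hb] at h1
    linarith
  have : Nonempty {x // x ∈ SA} := hSA.to_subtype
  have : Nonempty {x // x ∈ SB} := hSB.to_subtype
  have : Nonempty {x // x ∈ SC} := hSC.to_subtype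
  obtain ⟨K, hK⟩ : ∃ K : Cube {x // x ∈ SA} {x // x ∈ SB} {x // x ∈ SC} X X X X X X X X, K =
      { a := fun a => al a
        b := fun b => be b
        c := fun c => ga c
        b1 := fun b => be b
        c1 := fun c => ga c
        a2 := fun a => al a
        c2 := fun c => ga c
        a3 := fun a => al a
        b3 := fun b => be b
        c12 := fun c => ga c
        b13 := fun b => be b
        a23 := fun a => al a
        ab := fun x y u => (hab x y u).symm
        ac := fun x z u => (hac x z u).symm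
        bc := fun y z u => (hbc y z u).symm
        f1 := fun y z u => (hbc y z u).symm
        f2 := fun x z u => (hac x z u).symm
        f3 := fun x y u => (hab x y u).symm } := ⟨_, rfl⟩
  have ca : Cond (fun c : {x // x ∈ SA} => al c) δ W0 := cond_of hLa hSA hδe.le
  have cb : Cond (fun c : {x // x ∈ SB} => be c) δ W0 := cond_of hLb hSB hδe.le
  have cc : Cond (fun c : {x // x ∈ SC} => ga c) δ W0 := cond_of hLc hSC hδe.le
  have HL : Loss K δ W0 := by
    rw [hK]
    exact ⟨cc, cc, cc, cc, cb, cb, ca, ca, ca⟩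
  have HI : Inj K n := by
    rw [hK]
    intro Z hZ u u' hu
    refine hI (Z.map (Function.Embedding.subtype _)) (fun z hz => ?_) ?_ u u' fun z hz => ?_
    · obtain ⟨w, -, rfl⟩ := mem_map.1 hz
      exact w.2
    · rw [card_map, hZ]
    · obtain ⟨w, hw, rfl⟩ := mem_map.1 hz
      exact hu w hw
  have HE : ExtD K δ := by
    rw [hK]
    intro Z p hp
    obtain ⟨c0⟩ := (inferInstance : Nonempty {x // x ∈ SC})
    obtain ⟨p', hp'⟩ : ∃ p' : Sd → X, p' = fun z => if h : z ∈ SC then p ⟨z, h⟩ else p c0 :=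
      ⟨_, rfl⟩
    have hpp : ∀ z : {x // x ∈ SC}, p' z = p z := fun z => by
      rw [hp']
      simp only
      rw [dif_pos z.2]
    obtain ⟨u, hu⟩ := hE (Z.map (Function.Embedding.subtype _))
      (fun z hz => by
        obtain ⟨w, -, rfl⟩ := mem_map.1 hz
        exact w.2) p' (sep SB fun b => ∃ q, ∀ z ∈ Z, ga z q = be b (p z))
      (fun b hb => (mem_sep.1 hb).1) (by
        have h1 := ex_coe SB fun b => ind (∃ q, ∀ z ∈ Z, ga z q = be b (p z))
        have hcB : (0 : ℝ) < SB.card := by exact_mod_cast card_pos.2 hSB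
        have h2 : 2 * δ < 𝔼 b : {x // x ∈ SB}, ind (∃ q, ∀ z ∈ Z, ga z q = be b (p z)) := hp
        rw [h1, lt_div_iff₀ hcB, ← card_sep] at h2
        refine lt_of_le_of_lt ?_ h2
        exact mul_le_mul_of_nonneg_right (by linarith) hcB.le)
      (fun b hb => by
        obtain ⟨-, q, hq⟩ := mem_sep.1 hb
        refine ⟨q, fun z hz => ?_⟩
        obtain ⟨w, hw, rfl⟩ := mem_map.1 hz
        show ga w q = be b (p' w)
        rw [hpp w]
        exact hq w hw)
    refine ⟨u, fun z hz => ?_⟩
    have := hu z (mem_map_of_mem _ hz)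
    rw [← hpp z]
    exact this
  obtain ⟨D, hD⟩ : ∃ D : Dat K, (∀ c, D.P c = P c) ∧ (∀ b, D.Q b = Q b) ∧ ∀ a, D.R a = R a := by
    subst hK
    exact ⟨⟨fun c => P c, fun b => Q b, fun a => R a, fun b c => hPQ b b.2 c c.2,
      fun a c => hPR a a.2 c c.2, fun a b => hQR a a.2 b b.2⟩, fun _ => rfl, fun _ => rfl,
      fun _ => rfl⟩
  obtain ⟨dP, dQ, dR⟩ := hD
  obtain ⟨U, g1, g2, g3, g4⟩ := glue5 HL hδ0 hn0 hδn HI HE hW D
    ⟨fun c => by rw [dP]; exact hP c c.2, fun b => by rw [dQ]; exact hQ b b.2,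
      fun a => by rw [dR]; exact hR a a.2⟩
  have k1 : ∀ c ∈ SC, push (ga c) U = P c := fun c hc => by
    have := g1 ⟨c, hc⟩
    rw [dP] at this
    rw [hK] at this
    exact this
  have k2 : ∀ b ∈ SB, push (be b) U = Q b := fun b hb => by
    have := g2 ⟨b, hb⟩
    rw [dQ] at this
    rw [hK] at this
    exact this
  have k3 : ∀ a ∈ SA, push (al a) U = R a := fun a ha => by
    have := g3 ⟨a, ha⟩
    rw [dR] at this
    rw [hK] at this
    exact this
  refine ⟨U, ?_, k1, k2, k3⟩
  have ce : Cond (fun c : {x // x ∈ SC} => ga c) e W0 := cond_of hLc hSC le_rfl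
  refine (ce.sz (g4.trans (by omega))).trans (ex_le fun c => ?_)
  rw [k1 c c.2]
  exact_mod_cast hP c c.2

end Vale.Agent.P318.H891
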