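import Vale.Agent.P318.H891.Glue

/-!
# P318, the gluing lemma for commuting operators on one space
-/

set_option autoImplicit false

namespace Vale.Agent.P318.H891

open Finset
open scoped BigOperators Classical

variable {S1 S2 S3 X : Type*} [Fintype S1] [Fintype S2] [Fintype S3] [Nonempty S1] [Nonempty S2]
  [Nonempty S3] [Fintype X]

/-- The cube of commuting operators on one space. -/
def cubeX (al : S1 → X → X) (be : S2 → X → X) (ga : S3 → X → X)
    (hab : ∀ a b e, be b (al a e) = al a (be b e)) (hac : ∀ a c e, ga c (al a e) = al a (ga c e))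
    (hbc : ∀ b c e, ga c (be b e) = be b (ga c e)) : Cube S1 S2 S3 X X X X X X X X where
  a := al
  b := be
  c := ga
  b1 := be
  c1 := ga
  a2 := al
  c2 := ga
  a3 := al
  b3 := be
  c12 := ga
  b13 := be
  a23 := al
  ab := hab
  ac := hac
  bc := hbc
  f1 := fun y z e => hbc y z e
  f2 := fun x z e => hac x z e
  f3 := fun x y e => hab x y e

/-- **The gluing lemma**, commuting operators on one space. -/
theorem glueX {al : S1 → X → X} {be : S2 → X → X} {ga : S3 → X → X} {δ : ℝ} {W W0 n : ℕ}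
    (hab : ∀ a b e, be b (al a e) = al a (be b e)) (hac : ∀ a c e, ga c (al a e) = al a (ga c e))
    (hbc : ∀ b c e, ga c (be b e) = be b (ga c e))
    (ha : Cond al δ W0) (hb : Cond be δ W0) (hc : Cond ga δ W0)
    (h0 : 0 < δ) (hδ : δ ≤ 1 / 100) (hn : 1 ≤ n) (hS : 10 * n ≤ 9 * Fintype.card S3)
    (hδn : 280 * δ * (n + 1) ≤ 1 / 2)
    (hI : ∀ Z : Finset S3, Z.card = n → ∀ u u', (∀ z ∈ Z, ga z u = ga z u') → u = u')
    (hE : ∀ (Z : Finset S3) (p : S3 → X), Z.card ≤ n + 1 →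
      1 / 2 ≤ 𝔼 y, ind (∃ q, ∀ z ∈ Z, ga z q = be y (p z)) → ∃ u, ∀ z ∈ Z, ga z u = p z)
    (hW : 2 * W + 1 ≤ W0) {P : S3 → X → ZMod 2} {Q : S2 → X → ZMod 2} {R : S1 → X → ZMod 2}
    (hP : ∀ c, (su (P c)).card ≤ W) (hQ : ∀ b, (su (Q b)).card ≤ W)
    (hR : ∀ a, (su (R a)).card ≤ W)
    (hPQ : ∀ b c, push (be b) (P c) = push (ga c) (Q b))
    (hPR : ∀ a c, push (al a) (P c) = push (ga c) (R a))
    (hQR : ∀ a b, push (al a) (Q b) = push (be b) (R a)) : ∃ U : X → ZMod 2,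
      (∀ c, push (ga c) U = P c) ∧ (∀ b, push (be b) U = Q b) ∧ (∀ a, push (al a) U = R a) ∧
      (1 - 2 * δ) * (su U).card ≤ 𝔼 c, ((su (P c)).card : ℝ) ∧
      𝔼 c, ((su (P c)).card : ℝ) ≤ W := by
  obtain ⟨U, g1, g2, g3, g4, g5⟩ := glue (K := cubeX al be ga hab hac hbc) (δ := δ) (W := W)
    (W0 := W0) (n := n) ⟨hc, hc, hc, hc, hb, hb, ha, ha, ha⟩ h0 hδ hn hS hδn hI hE hW
    ⟨P, Q, R, fun y z => hPQ y z, fun x z => hPR x z, fun x y => hQR x y⟩ ⟨hP, hQ, hR⟩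
  exact ⟨U, g1, g2, g3, g4, g5⟩

end Vale.Agent.P318.H891
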