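import Vale.Agent.P318.H891.Link

/-!
# P318, the gluing lemma in three coordinates
-/

set_option autoImplicit false
set_option linter.unusedSectionVars false

namespace Vale.Agent.P318.H891

open Finset
open scoped BigOperators Classical

/-! ### averages -/

section av

variable {S1 S2 S3 : Type*} [Fintype S1] [Fintype S2] [Fintype S3] [Nonempty S1] [Nonempty S2]
  [Nonempty S3] {f g : S1 → S2 → S3 → S3 → ℝ} {c : ℝ}

/-- The average over four seeds. -/
noncomputable def Av (f : S1 → S2 → S3 → S3 → ℝ) : ℝ := 𝔼 x, 𝔼 y, 𝔼 z, 𝔼 z', f x y z z'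

theorem Av_mono (h : ∀ x y z z', f x y z z' ≤ g x y z z') : Av f ≤ Av g :=
  expect_le_expect fun x _ => expect_le_expect fun y _ => expect_le_expect fun z _ =>
    expect_le_expect fun z' _ => h x y z z'

theorem Av_add : Av (fun x y z z' => f x y z z' + g x y z z') = Av f + Av g := by
  unfold Av
  simp only [expect_add_distrib]

theorem ex_le {S : Type*} [Fintype S] [Nonempty S] {f : S → ℝ} {c : ℝ} (h : ∀ s, f s ≤ c) :
    𝔼 s, f s ≤ c := expect_le univ_nonempty fun s _ => h s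

theorem av_z' (h : ∀ x y z, 𝔼 z', f x y z z' ≤ c) : Av f ≤ c :=
  ex_le fun x => ex_le fun y => ex_le fun z => h x y z

theorem av_z (h : ∀ x y z', 𝔼 z, f x y z z' ≤ c) : Av f ≤ c := by
  refine ex_le fun x => ex_le fun y => ?_
  rw [expect_comm]
  exact ex_le fun z' => h x y z'

theorem av_y (h : ∀ x z z', 𝔼 y, f x y z z' ≤ c) : Av f ≤ c := by
  refine ex_le fun x => ?_
  rw [expect_comm]
  refine ex_le fun z => ?_
  rw [expect_comm]
  exact ex_le fun z' => h x z z'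

theorem av_x (h : ∀ y z z', 𝔼 x, f x y z z' ≤ c) : Av f ≤ c := by
  unfold Av
  rw [expect_comm]
  refine ex_le fun y => ?_
  rw [expect_comm]
  refine ex_le fun z => ?_
  rw [expect_comm]
  exact ex_le fun z' => h y z z'

theorem av_xy (h : ∀ z z', 𝔼 x, 𝔼 y, f x y z z' ≤ c) : Av f ≤ c := by
  have e : Av f = 𝔼 z, 𝔼 z', 𝔼 x, 𝔼 y, f x y z z' := by
    unfold Av
    calc 𝔼 x, 𝔼 y, 𝔼 z, 𝔼 z', f x y z z' = 𝔼 x, 𝔼 z, 𝔼 y, 𝔼 z', f x y z z' :=
          expect_congr rfl fun x _ => expect_comm _ _ _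
      _ = 𝔼 z, 𝔼 x, 𝔼 y, 𝔼 z', f x y z z' := expect_comm _ _ _
      _ = 𝔼 z, 𝔼 x, 𝔼 z', 𝔼 y, f x y z z' :=
          expect_congr rfl fun z _ => expect_congr rfl fun x _ => expect_comm _ _ _
      _ = 𝔼 z, 𝔼 z', 𝔼 x, 𝔼 y, f x y z z' :=
          expect_congr rfl fun z _ => expect_comm _ _ _
  rw [e]
  exact ex_le fun z => ex_le fun z' => h z z'

theorem av_front : Av f = 𝔼 z, 𝔼 x, 𝔼 y, 𝔼 z', f x y z z' := by
  unfold Av
  calc 𝔼 x, 𝔼 y, 𝔼 z, 𝔼 z', f x y z z' = 𝔼 x, 𝔼 z, 𝔼 y, 𝔼 z', f x y z z' :=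
        expect_congr rfl fun x _ => expect_comm _ _ _
    _ = 𝔼 z, 𝔼 x, 𝔼 y, 𝔼 z', f x y z z' := expect_comm _ _ _

end av

/-- The indicator of a proposition. -/
noncomputable def ind (p : Prop) : ℝ := if p then 1 else 0

theorem ind_nn (p : Prop) : 0 ≤ ind p := by
  unfold ind
  split_ifs <;> norm_num

theorem ind_le (p : Prop) : ind p ≤ 1 := by
  unfold ind
  split_ifs <;> norm_num

theorem ind_not (p : Prop) : ind (¬ p) = 1 - ind p := by
  unfold ind
  by_cases h : p <;> simp [h]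

theorem ind_mono {p q : Prop} (h : p → q) : ind p ≤ ind q := by
  unfold ind
  by_cases hp : p
  · rw [if_pos hp, if_pos (h hp)]
  · rw [if_neg hp]
    split_ifs <;> norm_num

theorem ind_pos {p : Prop} (h : 0 < ind p) : p := by
  by_contra hp
  unfold ind at h
  rw [if_neg hp] at h
  exact lt_irrefl _ h

theorem card_sep {α : Type*} (U : Finset α) (P : α → Prop) :
    ((sep U P).card : ℝ) = ∑ p ∈ U, ind (P p) := by
  unfold sep ind
  rw [card_filter]
  push_cast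
  refine sum_congr rfl fun p _ => ?_
  by_cases h : P p <;> simp [h]

section glue

variable {S1 S2 S3 E E1 E2 E3 E12 E13 E23 E123 : Type*}
  [Fintype S1] [Fintype S2] [Fintype S3] [Nonempty S1] [Nonempty S2] [Nonempty S3]
  [Fintype E] [Fintype E1] [Fintype E2] [Fintype E3] [Fintype E12] [Fintype E13] [Fintype E23]
  [Fintype E123]

/-- All operators are lossless. -/
structure Loss (K : Cube S1 S2 S3 E E1 E2 E3 E12 E13 E23 E123) (δ : ℝ) (W : ℕ) : Prop where
  c : Cond K.c δ W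
  c1 : Cond K.c1 δ W
  c2 : Cond K.c2 δ W
  c12 : Cond K.c12 δ W
  b1 : Cond K.b1 δ W
  b3 : Cond K.b3 δ W
  a2 : Cond K.a2 δ W
  a3 : Cond K.a3 δ W
  a23 : Cond K.a23 δ W

variable {K : Cube S1 S2 S3 E E1 E2 E3 E12 E13 E23 E123} {δ : ℝ} {W W0 n : ℕ} {D : Dat K}

/-- The average size. -/
noncomputable def Dat.A (D : Dat K) : ℝ := 𝔼 z, ((su (D.P z)).card : ℝ)

/-- All sizes are at most `W`. -/
structure Dat.Sz (D : Dat K) (W : ℕ) : Prop where
  p : ∀ z, (su (D.P z)).card ≤ W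
  q : ∀ y, (su (D.Q y)).card ≤ W
  r : ∀ x, (su (D.R x)).card ≤ W

theorem Dat.q_le (HL : Loss K δ W0) (hs : D.Sz W0) (y : S2) :
    (1 - 2 * δ) * (su (D.Q y)).card ≤ D.A := by
  refine (HL.c2.sz (hs.q y)).trans (expect_le_expect fun z _ => ?_)
  rw [← D.hbc y z]
  exact Nat.cast_le.2 (sz_push _ _)

theorem Dat.r_le (HL : Loss K δ W0) (hs : D.Sz W0) (x : S1) :
    (1 - 2 * δ) * (su (D.R x)).card ≤ D.A := by
  refine (HL.c1.sz (hs.r x)).trans (expect_le_expect fun z _ => ?_)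
  rw [← D.hac x z]
  exact Nat.cast_le.2 (sz_push _ _)

theorem Dat.p_le (HL : Loss K δ W0) (hs : D.Sz W0) (hδ : 2 * δ ≤ 1) (z : S3) :
    (1 - 2 * δ) * ((1 - 2 * δ) * (su (D.P z)).card) ≤ D.A := by
  have h1 : (1 - 2 * δ) * (su (D.P z)).card ≤ 𝔼 y, ((su (D.Q y)).card : ℝ) := by
    refine (HL.b3.sz (hs.p z)).trans (expect_le_expect fun y _ => ?_)
    rw [D.hbc y z]
    exact Nat.cast_le.2 (sz_push _ _)
  refine (mul_le_mul_of_nonneg_left h1 (by linarith)).trans ?_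
  rw [mul_expect]
  exact ex_le fun y => Dat.q_le HL hs y

theorem Dat.A_nn : 0 ≤ D.A := expect_nonneg fun _ _ => Nat.cast_nonneg _

/-- The sizes in terms of the average. -/
theorem Dat.bds (HL : Loss K δ W0) (hs : D.Sz W0) (h0 : 0 ≤ δ) (hδ : δ ≤ 1 / 100) {M : ℝ}
    (hM : M = D.A / (1 - 2 * δ) ^ 2) : (∀ z, ((su (D.P z)).card : ℝ) ≤ M) ∧
      (∀ y, ((su (D.Q y)).card : ℝ) ≤ M) ∧ ∀ x, ((su (D.R x)).card : ℝ) ≤ M := by
  have hp : 0 < (1 - 2 * δ) ^ 2 := by
    have : 0 < 1 - 2 * δ := by linarith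
    positivity
  have hA : 0 ≤ D.A := Dat.A_nn
  have key : ∀ t : ℝ, 0 ≤ t → (1 - 2 * δ) * t ≤ D.A → t ≤ M := fun t ht h => by
    rw [hM, le_div_iff₀ hp]
    nlinarith [mul_nonneg ht h0]
  refine ⟨fun z => ?_, fun y => key _ (Nat.cast_nonneg _) (Dat.q_le HL hs y),
    fun x => key _ (Nat.cast_nonneg _) (Dat.r_le HL hs x)⟩
  rw [hM, le_div_iff₀ hp]
  have := Dat.p_le HL hs (by linarith) z
  nlinarith

theorem Av_const_z (f : S3 → ℝ) : Av (fun (_ : S1) (_ : S2) z _ => f z) = 𝔼 z, f z := by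
  unfold Av
  simp only [Fintype.expect_const]

/-- **The average number of good elements.** -/
theorem Dat.avG (HL : Loss K δ W0) (hs : D.Sz W0) (h0 : 0 ≤ δ) (hδ : δ ≤ 1 / 100) :
    (1 - 28 * δ) * D.A ≤
      Av fun x y z z' => ((sep (su (D.P z)) fun p => D.Gd x y z z' p).card : ℝ) := by
  obtain ⟨M, hM⟩ : ∃ M, M = D.A / (1 - 2 * δ) ^ 2 := ⟨_, rfl⟩
  obtain ⟨bp, bq, br⟩ := Dat.bds HL hs h0 hδ hM
  have hA : 0 ≤ D.A := Dat.A_nn
  have hMA : 26 * M ≤ 28 * D.A := by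
    rw [hM, ← mul_div_assoc, div_le_iff₀ (by
      have : 0 < 1 - 2 * δ := by linarith
      positivity)]
    nlinarith [mul_nonneg hA h0, mul_nonneg hA (mul_nonneg h0 h0)]
  have m2 : ∀ t : ℝ, t ≤ M → 2 * δ * t ≤ 2 * δ * M := fun t ht =>
    mul_le_mul_of_nonneg_left ht (by linarith)
  have n1 : Av (fun (_ : S1) y z (_ : S3) => (D.N1 y z : ℝ)) ≤ 2 * δ * M :=
    av_y fun x z z' => (HL.b3.non_le (hs.p z)).trans (m2 _ (bp z))
  have n1' : Av (fun (_ : S1) y (_ : S3) z' => (D.N1 y z' : ℝ)) ≤ 2 * δ * M :=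
    av_y fun x z z' => (HL.b3.non_le (hs.p z')).trans (m2 _ (bp z'))
  have n2 : Av (fun (_ : S1) y z (_ : S3) => (D.N2 y z : ℝ)) ≤ 2 * δ * M :=
    av_z fun x y z' => (HL.c2.non_le (hs.q y)).trans (m2 _ (bq y))
  have n2' : Av (fun (_ : S1) y (_ : S3) z' => (D.N2 y z' : ℝ)) ≤ 2 * δ * M :=
    av_z' fun x y z => (HL.c2.non_le (hs.q y)).trans (m2 _ (bq y))
  have n3 : Av (fun x (_ : S2) z (_ : S3) => (D.N3 x z : ℝ)) ≤ 2 * δ * M :=
    av_x fun y z z' => (HL.a3.non_le (hs.p z)).trans (m2 _ (bp z))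
  have n3' : Av (fun x (_ : S2) (_ : S3) z' => (D.N3 x z' : ℝ)) ≤ 2 * δ * M :=
    av_x fun y z z' => (HL.a3.non_le (hs.p z')).trans (m2 _ (bp z'))
  have n4 : Av (fun x (_ : S2) z (_ : S3) => (D.N4 x z : ℝ)) ≤ 2 * δ * M :=
    av_z fun x y z' => (HL.c1.non_le (hs.r x)).trans (m2 _ (br x))
  have n4' : Av (fun x (_ : S2) (_ : S3) z' => (D.N4 x z' : ℝ)) ≤ 2 * δ * M :=
    av_z' fun x y z => (HL.c1.non_le (hs.r x)).trans (m2 _ (br x))
  have n5 : Av (fun x y (_ : S3) (_ : S3) => (D.N5 x y : ℝ)) ≤ 2 * δ * M :=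
    av_x fun y z z' => (HL.a2.non_le (hs.q y)).trans (m2 _ (bq y))
  have n6 : Av (fun x y (_ : S3) (_ : S3) => (D.N6 x y : ℝ)) ≤ 2 * δ * M :=
    av_y fun x z z' => (HL.b1.non_le (hs.r x)).trans (m2 _ (br x))
  have n7 : Av (fun x y z (_ : S3) => (D.N7 x y z : ℝ)) ≤ 2 * δ * M :=
    av_z fun x y z' => (HL.c12.non_le ((sz_push _ _).trans (hs.q y))).trans (m2 _
      (le_trans (Nat.cast_le.2 (sz_push _ _)) (bq y)))
  have n8 : Av (fun x y (_ : S3) z' => (D.N8 x y z' : ℝ)) ≤ 4 * δ * M :=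
    av_xy fun z z' => (HL.b3.comp_le HL.a23 (by linarith) (hs.p z')).trans
      (mul_le_mul_of_nonneg_left (bp z') (by linarith))
  have key : Av (fun (_ : S1) (_ : S2) z (_ : S3) => ((su (D.P z)).card : ℝ)) ≤
      Av fun x y z z' => ((sep (su (D.P z)) fun p => D.Gd x y z z' p).card : ℝ) +
        ((((((((D.N1 y z : ℝ) + D.N2 y z) + ((D.N2 y z' : ℝ) + D.N1 y z')) +
        ((D.N3 x z : ℝ) + D.N4 x z)) + ((D.N4 x z' : ℝ) + D.N3 x z')) + D.N5 x y) + D.N6 x y) +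
        D.N7 x y z + D.N8 x y z') :=
    Av_mono fun x y z z' => by exact_mod_cast D.count x y z z'
  rw [Av_const_z] at key
  simp only [Av_add] at key
  have hA' : D.A = 𝔼 z, ((su (D.P z)).card : ℝ) := rfl
  rw [← hA'] at key
  nlinarith

/-- **The best element.** -/
theorem Dat.best (HL : Loss K δ W0) (hs : D.Sz W0) (h0 : 0 ≤ δ) (hδ : δ ≤ 1 / 100)
    (hA : 0 < D.A) : ∃ z, ∃ p ∈ su (D.P z),
      1 - 28 * δ ≤ 𝔼 x, 𝔼 y, 𝔼 z', ind (D.Gd x y z z' p) := by
  have h1 := Dat.avG HL hs h0 hδ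
  rw [av_front] at h1
  by_contra hcon
  push Not at hcon
  have e1 : ∀ z, 𝔼 x, 𝔼 y, 𝔼 z', ((sep (su (D.P z)) fun p => D.Gd x y z z' p).card : ℝ) =
      ∑ p ∈ su (D.P z), 𝔼 x, 𝔼 y, 𝔼 z', ind (D.Gd x y z z' p) := by
    intro z
    simp only [card_sep, expect_sum_comm]
  simp only [e1] at h1
  have h2 : 𝔼 z, ∑ p ∈ su (D.P z), 𝔼 x, 𝔼 y, 𝔼 z', ind (D.Gd x y z z' p) <
      𝔼 z, ((1 - 28 * δ) * (su (D.P z)).card) := by
    apply expect_lt_expect
    · intro z _
      rw [mul_comm, ← nsmul_eq_mul]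
      exact sum_le_card_nsmul _ _ _ fun p hp => (hcon z p hp).le
    · by_contra hno
      push Not at hno
      have h3 : ∀ z, su (D.P z) = ∅ := by
        intro z
        by_contra hne
        obtain ⟨p, hp⟩ := nonempty_iff_ne_empty.2 hne
        have h4 := hno z (mem_univ z)
        have h5 : ∑ p ∈ su (D.P z), 𝔼 x, 𝔼 y, 𝔼 z', ind (D.Gd x y z z' p) <
            ∑ _p ∈ su (D.P z), (1 - 28 * δ) :=
          sum_lt_sum (fun p hp => (hcon z p hp).le) ⟨p, hp, hcon z p hp⟩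
        rw [sum_const, nsmul_eq_mul] at h5
        linarith
      have h4 : D.A = 0 := expect_eq_zero fun z _ => by rw [h3 z]; simp
      linarith
  rw [← mul_expect] at h2
  have hA' : D.A = 𝔼 z, ((su (D.P z)).card : ℝ) := rfl
  rw [← hA'] at h2
  linarith

/-- Any `n` seeds determine a point. -/
def Inj (K : Cube S1 S2 S3 E E1 E2 E3 E12 E13 E23 E123) (n : ℕ) : Prop :=
  ∀ Z : Finset S3, Z.card = n → ∀ u u', (∀ z ∈ Z, K.c z u = K.c z u') → u = u'

/-- Extension. -/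
def Ext (K : Cube S1 S2 S3 E E1 E2 E3 E12 E13 E23 E123) (n : ℕ) : Prop :=
  ∀ (Z : Finset S3) (p : S3 → E3), Z.card ≤ n + 1 →
    1 / 2 ≤ 𝔼 y, ind (∃ q, ∀ z ∈ Z, K.c2 z q = K.b3 y (p z)) → ∃ u, ∀ z ∈ Z, K.c z u = p z

/-- **A point above most of the measures.** -/
theorem Dat.point (HL : Loss K δ W0) (hs : D.Sz W0) (h0 : 0 < δ) (hδ : δ ≤ 1 / 100)
    (hA : 0 < D.A) (hn : 1 ≤ n) (hS : 10 * n ≤ 9 * Fintype.card S3)
    (hδn : 280 * δ * (n + 1) ≤ 1 / 2) (hI : Inj K n) (hE : Ext K n) :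
    ∃ u, 9 / 10 ≤ 𝔼 z, ind (K.c z u ∈ su (D.P z)) := by
  obtain ⟨z0, p0, hp0, h1⟩ := Dat.best HL hs h0.le hδ hA
  have hX : ∀ z' : S3, ∃ x : S1, 𝔼 x, 𝔼 y, ind (D.Gd x y z0 z' p0) ≤
      𝔼 y, ind (D.Gd x y z0 z' p0) := fun z' => by
    obtain ⟨x, -, hx⟩ := exists_le_of_le_expect (s := (univ : Finset S1)) univ_nonempty
      (le_refl (𝔼 x, 𝔼 y, ind (D.Gd x y z0 z' p0)))
    exact ⟨x, hx⟩
  choose X hX using hX
  have hp : ∀ z' : S3, ∃ p', ∀ y, D.Gd (X z') y z0 z' p0 →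
      ∃ q, D.LQ y z0 p0 q ∧ D.LQ y z' p' q := by
    intro z'
    by_cases h : ∃ y, D.Gd (X z') y z0 z' p0
    · obtain ⟨y1, q1, r1, p1, g1, g2, g3, g4⟩ := h
      refine ⟨p1, fun y hy => ?_⟩
      obtain ⟨q, r, p', k1, k2, k3, k4⟩ := hy
      have e1 : r = r1 := k3.ru g3
      rw [e1] at k4
      have e2 : p' = p1 := k4.lu g4
      rw [e2] at k2
      exact ⟨q, k1, k2⟩
    · exact ⟨p0, fun y hy => absurd ⟨y, hy⟩ h⟩
  choose p hp using hp
  obtain ⟨B, hB⟩ : ∃ B : S2 → S3 → Prop, B = fun y z' =>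
      ¬ ∃ q, D.LQ y z0 p0 q ∧ D.LQ y z' (p z') q := ⟨_, rfl⟩
  have hBavg : 𝔼 z', 𝔼 y, ind (B y z') ≤ 28 * δ := by
    have h2 : ∀ z', 𝔼 y, ind (B y z') ≤ 1 - 𝔼 x, 𝔼 y, ind (D.Gd x y z0 z' p0) := by
      intro z'
      have h3 : 𝔼 y, ind (B y z') ≤ 𝔼 y, (1 - ind (D.Gd (X z') y z0 z' p0)) := by
        refine expect_le_expect fun y _ => ?_
        rw [← ind_not]
        refine ind_mono fun h => ?_
        rw [hB] at h
        exact fun h' => h (hp z' y h')
      rw [expect_sub_distrib, Fintype.expect_const] at h3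
      have := hX z'
      linarith
    have h3 : 𝔼 z', 𝔼 y, ind (B y z') ≤
        𝔼 z', (1 - 𝔼 x, 𝔼 y, ind (D.Gd x y z0 z' p0)) := expect_le_expect fun z' _ => h2 z'
    rw [expect_sub_distrib, Fintype.expect_const] at h3
    have h4 : 𝔼 z', 𝔼 x, 𝔼 y, ind (D.Gd x y z0 z' p0) =
        𝔼 x, 𝔼 y, 𝔼 z', ind (D.Gd x y z0 z' p0) := by
      rw [expect_comm]
      exact expect_congr rfl fun x _ => expect_comm _ _ _
    rw [h4] at h3
    linarith
  -- the good seeds
  obtain ⟨Zg, hZg⟩ : ∃ Zg : Finset S3, Zg = sep univ fun z' => 𝔼 y, ind (B y z') ≤ 280 * δ :=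
    ⟨_, rfl⟩
  have hmem : ∀ z', z' ∈ Zg ↔ 𝔼 y, ind (B y z') ≤ 280 * δ := fun z' => by
    rw [hZg, mem_sep]
    simp
  have hbad : 𝔼 z', ind (z' ∉ Zg) ≤ 1 / 10 := by
    have h2 : 𝔼 z', (280 * δ * ind (z' ∉ Zg)) ≤ 𝔼 z', 𝔼 y, ind (B y z') := by
      refine expect_le_expect fun z' _ => ?_
      by_cases h : z' ∈ Zg
      · have : ind (z' ∉ Zg) = 0 := by unfold ind; rw [if_neg (not_not.2 h)]
        rw [this, mul_zero]
        exact expect_nonneg fun y _ => ind_nn _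
      · have : ind (z' ∉ Zg) = 1 := by unfold ind; rw [if_pos h]
        rw [this, mul_one]
        rw [hmem, not_le] at h
        exact h.le
    rw [← mul_expect] at h2
    have h3 : 280 * δ * 𝔼 z', ind (z' ∉ Zg) ≤ 28 * δ := h2.trans hBavg
    by_contra h4
    push Not at h4
    nlinarith
  have hgood : 9 / 10 ≤ 𝔼 z', ind (z' ∈ Zg) := by
    have h2 : 𝔼 z', ind (z' ∉ Zg) = 1 - 𝔼 z', ind (z' ∈ Zg) := by
      simp only [ind_not, expect_sub_distrib, Fintype.expect_const]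
    linarith
  have hcard : n ≤ Zg.card := by
    have h2 : 𝔼 z', ind (z' ∈ Zg) = (Zg.card : ℝ) / Fintype.card S3 := by
      rw [Fintype.expect_eq_sum_div_card, ← card_sep]
      congr 3
      ext z
      rw [mem_sep]
      simp
    rw [h2, le_div_iff₀ (by exact_mod_cast Fintype.card_pos)] at hgood
    have h3 : (10 * n : ℝ) ≤ 9 * Fintype.card S3 := by exact_mod_cast hS
    have h4 : (n : ℝ) ≤ Zg.card := by linarith
    exact_mod_cast h4
  -- the extension
  have hext : ∀ Z : Finset S3, Z ⊆ Zg → Z.Nonempty → Z.card ≤ n + 1 →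
      ∃ u, ∀ z ∈ Z, K.c z u = p z := by
    intro Z hZ hne hZn
    refine hE Z p hZn ?_
    have h2 : ∀ y, 1 - ∑ z ∈ Z, ind (B y z) ≤
        ind (∃ q, ∀ z ∈ Z, K.c2 z q = K.b3 y (p z)) := by
      intro y
      by_cases h : ∃ z ∈ Z, B y z
      · obtain ⟨z, hz, hz'⟩ := h
        have h3 : ind (B y z) ≤ ∑ z ∈ Z, ind (B y z) :=
          single_le_sum (f := fun z => ind (B y z)) (fun z _ => ind_nn _) hz
        have h4 : ind (B y z) = 1 := by unfold ind; rw [if_pos hz']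
        have := ind_nn (∃ q, ∀ z ∈ Z, K.c2 z q = K.b3 y (p z))
        linarith
      · push Not at h
        have h3 : 0 ≤ ∑ z ∈ Z, ind (B y z) := sum_nonneg fun z _ => ind_nn _
        have h4 : ∃ q, ∀ z ∈ Z, K.c2 z q = K.b3 y (p z) := by
          obtain ⟨z1, hz1⟩ := hne
          have h5 := h z1 hz1
          rw [hB] at h5
          push Not at h5
          obtain ⟨q, hq1, hq2⟩ := h5
          refine ⟨q, fun z hz => ?_⟩
          have h6 := h z hz
          rw [hB] at h6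
          push Not at h6
          obtain ⟨q', hq1', hq2'⟩ := h6
          have e1 : q' = q := hq1'.ru hq1
          rw [e1] at hq2'
          exact hq2'.2.2.1.symm
        have h5 : ind (∃ q, ∀ z ∈ Z, K.c2 z q = K.b3 y (p z)) = 1 := by
          unfold ind
          rw [if_pos h4]
        linarith
    have h3 : 𝔼 y, (1 - ∑ z ∈ Z, ind (B y z)) ≤
        𝔼 y, ind (∃ q, ∀ z ∈ Z, K.c2 z q = K.b3 y (p z)) :=
      expect_le_expect fun y _ => h2 y
    rw [expect_sub_distrib, Fintype.expect_const, expect_sum_comm] at h3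
    have h4 : ∑ z ∈ Z, 𝔼 y, ind (B y z) ≤ (n + 1) * (280 * δ) := by
      have h5 : ∑ z ∈ Z, 𝔼 y, ind (B y z) ≤ ∑ _z ∈ Z, 280 * δ :=
        sum_le_sum fun z hz => (hmem z).1 (hZ hz)
      rw [sum_const, nsmul_eq_mul] at h5
      refine h5.trans (mul_le_mul_of_nonneg_right ?_ (by linarith))
      exact_mod_cast hZn
    nlinarith
  obtain ⟨Z0, hZ0, hZ0n⟩ := exists_subset_card_eq hcard
  have hne0 : Z0.Nonempty := by
    rw [← card_pos]
    omega
  obtain ⟨u, hu⟩ := hext Z0 hZ0 hne0 (by omega)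
  refine ⟨u, hgood.trans (expect_le_expect fun z _ => ind_mono fun hz => ?_)⟩
  obtain ⟨u', hu'⟩ := hext (insert z Z0) (insert_subset hz hZ0) (insert_nonempty _ _)
    ((card_insert_le _ _).trans (by omega))
  have e1 : u' = u := hI Z0 hZ0n u' u fun z' hz' => by
    rw [hu z' hz', hu' z' (mem_insert_of_mem hz')]
  rw [← e1, hu' z (mem_insert_self _ _)]
  have h2 : ∃ y, ¬ B y z := by
    by_contra hno
    push Not at hno
    have h3 : 𝔼 y : S2, ind (B y z) = 1 := by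
      have : ∀ y, ind (B y z) = 1 := fun y => by unfold ind; rw [if_pos (hno y)]
      simp only [this, Fintype.expect_const]
    have h4 := (hmem z).1 hz
    rw [h3] at h4
    nlinarith
  obtain ⟨y, hy⟩ := h2
  rw [hB] at hy
  push Not at hy
  obtain ⟨q, -, hq⟩ := hy
  exact hq.1

theorem z2_add {a : ZMod 2} (h : a ≠ 0) : a + 1 = 0 := by
  revert a
  decide

theorem z2_add_add (a b : ZMod 2) : a + b + b = a := by
  revert a b
  decide

theorem add_single_twice {X : Type*} (μ : X → ZMod 2) (v : X) :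
    μ + Pi.single v 1 + Pi.single v 1 = μ := by
  funext x
  exact z2_add_add _ _

/-- The size after the subtraction of a point. -/
theorem sz_sub {X : Type*} [Fintype X] (μ : X → ZMod 2) (v : X) :
    ((su (μ + Pi.single v 1)).card : ℝ) ≤ (su μ).card + 1 - 2 * ind (v ∈ su μ) := by
  have hne : ∀ x, x ≠ v → (μ + Pi.single v (1 : ZMod 2) : X → ZMod 2) x = μ x := fun x hx => by
    rw [Pi.add_apply, Pi.single_eq_of_ne hx, add_zero]
  by_cases h : v ∈ su μ
  · have h1 : su (μ + Pi.single v 1) ⊆ (su μ).erase v := by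
      intro x hx
      rw [mem_su] at hx
      rw [mem_erase]
      by_cases hxv : x = v
      · exfalso
        apply hx
        rw [hxv, Pi.add_apply, Pi.single_eq_same]
        exact z2_add (mem_su.1 h)
      · rw [hne x hxv] at hx
        exact ⟨hxv, mem_su.2 hx⟩
    have h2 := card_le_card h1
    have h3 := card_erase_add_one h
    have h4 : (su (μ + Pi.single v 1)).card + 1 ≤ (su μ).card := by omega
    have h5 : ((su (μ + Pi.single v 1)).card : ℝ) + 1 ≤ (su μ).card := by exact_mod_cast h4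
    unfold ind
    rw [if_pos h]
    linarith
  · have h1 : su (μ + Pi.single v 1) ⊆ insert v (su μ) := by
      intro x hx
      rw [mem_su] at hx
      rw [mem_insert]
      by_cases hxv : x = v
      · exact Or.inl hxv
      · rw [hne x hxv] at hx
        exact Or.inr (mem_su.2 hx)
    have h2 := (card_le_card h1).trans (card_insert_le _ _)
    have h5 : ((su (μ + Pi.single v 1)).card : ℝ) ≤ (su μ).card + 1 := by exact_mod_cast h2
    unfold ind
    rw [if_neg h]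
    linarith

theorem sz_sub' {X : Type*} [Fintype X] (μ : X → ZMod 2) (v : X) :
    (su (μ + Pi.single v 1)).card ≤ (su μ).card + 1 := by
  have h1 := sz_sub μ v
  have h2 := ind_nn (v ∈ su μ)
  have h3 : ((su (μ + Pi.single v 1)).card : ℝ) ≤ ((su μ).card + 1 : ℕ) := by
    push_cast
    linarith
  exact_mod_cast h3

/-- Subtraction of a point. -/
noncomputable def Dat.sub (D : Dat K) (u : E) : Dat K where
  P z := D.P z + Pi.single (K.c z u) 1
  Q y := D.Q y + Pi.single (K.b y u) 1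
  R x := D.R x + Pi.single (K.a x u) 1
  hbc y z := by rw [push_add, push_add, push_single, push_single, D.hbc, K.bc]
  hac x z := by rw [push_add, push_add, push_single, push_single, D.hac, K.ac]
  hab x y := by rw [push_add, push_add, push_single, push_single, D.hab, K.ab]

theorem Dat.sum_eq (D : Dat K) : ((∑ z, (su (D.P z)).card : ℕ) : ℝ) = Fintype.card S3 * D.A := by
  unfold Dat.A
  rw [Fintype.card_mul_expect]
  push_cast
  rfl

theorem glue_aux (HL : Loss K δ W0) (h0 : 0 < δ) (hδ : δ ≤ 1 / 100) (hn : 1 ≤ n)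
    (hS : 10 * n ≤ 9 * Fintype.card S3) (hδn : 280 * δ * (n + 1) ≤ 1 / 2) (hI : Inj K n)
    (hE : Ext K n) (hW : 2 * W + 1 ≤ W0) : ∀ (N : ℕ) (D : Dat K), D.Sz W0 →
      ∑ z, (su (D.P z)).card ≤ N → D.A ≤ W → ∃ U : E → ZMod 2,
        (∀ z, push (K.c z) U = D.P z) ∧ (∀ y, push (K.b y) U = D.Q y) ∧
        (∀ x, push (K.a x) U = D.R x) ∧ ((su U).card : ℝ) ≤ 5 / 4 * D.A := by
  have hS3 : (0 : ℝ) < Fintype.card S3 := by exact_mod_cast Fintype.card_pos
  have hbase : ∀ D : Dat K, D.Sz W0 → D.A ≤ 0 → ∃ U : E → ZMod 2,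
      (∀ z, push (K.c z) U = D.P z) ∧ (∀ y, push (K.b y) U = D.Q y) ∧
      (∀ x, push (K.a x) U = D.R x) ∧ ((su U).card : ℝ) ≤ 5 / 4 * D.A := by
    intro D hs hA
    have key : ∀ t : ℕ, (1 - 2 * δ) * ((1 - 2 * δ) * (t : ℝ)) ≤ D.A → t = 0 := by
      intro t ht
      by_contra hne
      have h1 : (1 : ℝ) ≤ t := by exact_mod_cast Nat.one_le_iff_ne_zero.2 hne
      have h2 : 0 < 1 - 2 * δ := by linarith
      have h3 : 0 < (1 - 2 * δ) * ((1 - 2 * δ) * (t : ℝ)) := by positivity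
      linarith
    have key' : ∀ t : ℕ, (1 - 2 * δ) * (t : ℝ) ≤ D.A → t = 0 := fun t ht => key t
      ((mul_le_mul_of_nonneg_left ht (by linarith)).trans (by nlinarith))
    have hP : ∀ z, D.P z = 0 := fun z =>
      su_empty.1 (card_eq_zero.1 (key _ (Dat.p_le HL hs (by linarith) z)))
    have hQ : ∀ y, D.Q y = 0 := fun y =>
      su_empty.1 (card_eq_zero.1 (key' _ (Dat.q_le HL hs y)))
    have hR : ∀ x, D.R x = 0 := fun x =>
      su_empty.1 (card_eq_zero.1 (key' _ (Dat.r_le HL hs x)))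
    refine ⟨0, fun z => ?_, fun y => ?_, fun x => ?_, ?_⟩
    · rw [push_zero, hP]
    · rw [push_zero, hQ]
    · rw [push_zero, hR]
    · have h1 : 0 ≤ D.A := Dat.A_nn
      rw [su_zero]
      simp only [card_empty, Nat.cast_zero]
      linarith
  intro N
  induction N with
  | zero =>
    intro D hs hN hA
    refine hbase D hs ?_
    have h1 := D.sum_eq
    have h2 : ((∑ z, (su (D.P z)).card : ℕ) : ℝ) ≤ 0 := by exact_mod_cast hN
    rw [h1] at h2
    by_contra h3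
    push Not at h3
    nlinarith [mul_pos hS3 h3]
  | succ N ih =>
    intro D hs hN hA
    rcases le_or_gt D.A 0 with hA0 | hA0
    · exact hbase D hs hA0
    obtain ⟨u, hu⟩ := Dat.point HL hs h0 hδ hA0 hn hS hδn hI hE
    obtain ⟨M, hM⟩ : ∃ M, M = D.A / (1 - 2 * δ) ^ 2 := ⟨_, rfl⟩
    obtain ⟨bp, bq, br⟩ := Dat.bds HL hs h0.le hδ hM
    have hMW : M ≤ 2 * W := by
      rw [hM, div_le_iff₀ (by
        have : 0 < 1 - 2 * δ := by linarith
        positivity)]
      have h3 : 1 / 2 ≤ (1 - 2 * δ) ^ 2 := by nlinarith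
      have h4 := mul_le_mul_of_nonneg_left h3 (Nat.cast_nonneg (α := ℝ) W)
      linarith
    have hsz : ∀ t : ℕ, (t : ℝ) ≤ M → t + 1 ≤ W0 := fun t ht => by
      have h1 : (t : ℝ) ≤ ((2 * W : ℕ) : ℝ) := by
        push_cast
        linarith
      have h2 : t ≤ 2 * W := by exact_mod_cast h1
      omega
    have hs' : (D.sub u).Sz W0 :=
      ⟨fun z => (sz_sub' _ _).trans (hsz _ (bp z)), fun y => (sz_sub' _ _).trans (hsz _ (bq y)),
        fun x => (sz_sub' _ _).trans (hsz _ (br x))⟩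
    have hA' : (D.sub u).A ≤ D.A - 4 / 5 := by
      have h1 : (D.sub u).A ≤ 𝔼 z, (((su (D.P z)).card : ℝ) + 1 - 2 * ind (K.c z u ∈ su (D.P z))) :=
        expect_le_expect fun z _ => sz_sub _ _
      rw [expect_sub_distrib, expect_add_distrib, Fintype.expect_const, ← mul_expect] at h1
      have h2 : D.A = 𝔼 z, ((su (D.P z)).card : ℝ) := rfl
      rw [← h2] at h1
      linarith
    have hN' : ∑ z, (su ((D.sub u).P z)).card ≤ N := by
      have h1 := D.sum_eq
      have h2 := (D.sub u).sum_eq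
      have h3 : ((∑ z, (su ((D.sub u).P z)).card : ℕ) : ℝ) < ((∑ z, (su (D.P z)).card : ℕ) : ℝ) := by
        rw [h1, h2]
        exact mul_lt_mul_of_pos_left (by linarith) hS3
      have h4 : ∑ z, (su ((D.sub u).P z)).card < ∑ z, (su (D.P z)).card := by exact_mod_cast h3
      omega
    obtain ⟨U, g1, g2, g3, g4⟩ := ih (D.sub u) hs' hN' (by linarith)
    refine ⟨U + Pi.single u 1, fun z => ?_, fun y => ?_, fun x => ?_, ?_⟩
    · rw [push_add, push_single, g1]
      exact add_single_twice _ _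
    · rw [push_add, push_single, g2]
      exact add_single_twice _ _
    · rw [push_add, push_single, g3]
      exact add_single_twice _ _
    · have h1 : ((su (U + Pi.single u 1)).card : ℝ) ≤ (su U).card + 1 := by
        exact_mod_cast sz_sub' U u
      linarith

/-- **The gluing lemma in three coordinates.** -/
theorem glue (HL : Loss K δ W0) (h0 : 0 < δ) (hδ : δ ≤ 1 / 100) (hn : 1 ≤ n)
    (hS : 10 * n ≤ 9 * Fintype.card S3) (hδn : 280 * δ * (n + 1) ≤ 1 / 2) (hI : Inj K n)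
    (hE : Ext K n) (hW : 2 * W + 1 ≤ W0) (D : Dat K) (hs : D.Sz W) : ∃ U : E → ZMod 2,
      (∀ z, push (K.c z) U = D.P z) ∧ (∀ y, push (K.b y) U = D.Q y) ∧
      (∀ x, push (K.a x) U = D.R x) ∧ (1 - 2 * δ) * (su U).card ≤ D.A ∧ D.A ≤ W := by
  have hA : D.A ≤ W := ex_le fun z => by exact_mod_cast hs.p z
  have hWW : W ≤ W0 := by omega
  obtain ⟨U, g1, g2, g3, g4⟩ := glue_aux HL h0 hδ hn hS hδn hI hE hW _ D
    ⟨fun z => (hs.p z).trans hWW, fun y => (hs.q y).trans hWW, fun x => (hs.r x).trans hWW⟩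
    le_rfl hA
  refine ⟨U, g1, g2, g3, ?_, hA⟩
  have h1 : (su U).card ≤ W0 := by
    have h2 : ((su U).card : ℝ) ≤ ((2 * W : ℕ) : ℝ) := by
      push_cast
      linarith [Nat.cast_nonneg (α := ℝ) W]
    have h3 : (su U).card ≤ 2 * W := by exact_mod_cast h2
    omega
  refine (HL.c.sz h1).trans (expect_le_expect fun z _ => ?_)
  rw [g1]

/-- Uniqueness. -/
theorem push_unique {S X Y : Type*} [Fintype S] [Nonempty S] [Fintype X] [Fintype Y]
    {f : S → X → Y} (h : Cond f δ W0) (hδ : 2 * δ < 1) {U U' : X → ZMod 2}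
    (hs : (su U).card + (su U').card ≤ W0) (he : ∀ s, push (f s) U = push (f s) U') : U = U' := by
  have h1 : su (U + U') ⊆ su U ∪ su U' := by
    intro x hx
    rw [mem_su] at hx
    rw [mem_union, mem_su, mem_su]
    by_contra hno
    push Not at hno
    apply hx
    rw [Pi.add_apply, hno.1, hno.2, add_zero]
  have h2 : U + U' = 0 := by
    refine h.zero hδ ((card_le_card h1).trans ((card_union_le _ _).trans hs)) fun s => ?_
    rw [push_add, he s]
    funext x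
    have : ∀ a : ZMod 2, a + a = 0 := by decide
    exact this _
  funext x
  have h3 := congrFun h2 x
  have : ∀ a b : ZMod 2, a + b = 0 → a = b := by decide
  exact this _ _ h3

end glue

end Vale.Agent.P318.H891
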