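import Vale.Agent.P318.H891.Glue

/-!
# P318, the gluing lemma in three coordinates, weaker hypotheses on the seeds
-/

set_option autoImplicit false
set_option linter.unusedSectionVars false

namespace Vale.Agent.P318.H891

open Finset
open scoped BigOperators Classical

section glue

variable {S1 S2 S3 E E1 E2 E3 E12 E13 E23 E123 : Type*}
  [Fintype S1] [Fintype S2] [Fintype S3] [Nonempty S1] [Nonempty S2] [Nonempty S3]
  [Fintype E] [Fintype E1] [Fintype E2] [Fintype E3] [Fintype E12] [Fintype E13] [Fintype E23]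
  [Fintype E123]

variable {K : Cube S1 S2 S3 E E1 E2 E3 E12 E13 E23 E123} {δ : ℝ} {W W0 n : ℕ} {D : Dat K}

/-- Extension from more than the fraction `2 δ` of the seeds. -/
def ExtD (K : Cube S1 S2 S3 E E1 E2 E3 E12 E13 E23 E123) (δ : ℝ) : Prop :=
  ∀ (Z : Finset S3) (p : S3 → E3),
    2 * δ < 𝔼 y, ind (∃ q, ∀ z ∈ Z, K.c2 z q = K.b3 y (p z)) → ∃ u, ∀ z ∈ Z, K.c z u = p z

/-- **A point above most of the measures.** -/
theorem Dat.point5 (HL : Loss K δ W0) (hs : D.Sz W0) (h0 : 0 < δ)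
    (hA : 0 < D.A) (hn : 1 ≤ n) (hδn : (250 * (n + 1) + 2) * δ < 1) (hI : Inj K n)
    (hE : ExtD K δ) :
    ∃ u, 3 / 4 ≤ 𝔼 z, ind (K.c z u ∈ su (D.P z)) := by
  have hn1 : (1 : ℝ) ≤ n := by exact_mod_cast hn
  have hδ : δ ≤ 1 / 500 := by
    by_contra h
    push Not at h
    nlinarith
  have hδn' : δ * (n + 1) ≤ 1 / 250 := by
    by_contra h
    push Not at h
    nlinarith
  obtain ⟨z0, p0, hp0, h1⟩ := Dat.best HL hs h0.le (by linarith) hA
  have hX : ∀ z' : S3, ∃ x : S1, 𝔼 x, 𝔼 y, ind (D.Gd x y z0 z' p0) ≤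
      𝔼 y, ind (D.Gd x y z0 z' p0) := fun z' => by
    obtain ⟨x, -, hx⟩ := exists_le_of_le_expect (s := (univ : Finset S1)) univ_nonempty
      (le_refl (𝔼 x, 𝔼 y, ind (D.Gd x y z0 z' p0)))
    exact ⟨x, hx⟩
  choose X hX using hX
  have hp : ∀ z' : S3, ∃ p', ∀ y, D.Gd (X z') y z0 z' p0 →
      ∃ q, D.LQ y z0 p0 q ∧ D.LQ y z' p' q := by
    intro z'
    by_cases h : ∃ y, D.Gd (X z') y z0 z' p0
    · obtain ⟨y1, q1, r1, p1, g1, g2, g3, g4⟩ := h
      refine ⟨p1, fun y hy => ?_⟩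
      obtain ⟨q, r, p', k1, k2, k3, k4⟩ := hy
      have e1 : r = r1 := k3.ru g3
      rw [e1] at k4
      have e2 : p' = p1 := k4.lu g4
      rw [e2] at k2
      exact ⟨q, k1, k2⟩
    · exact ⟨p0, fun y hy => absurd ⟨y, hy⟩ h⟩
  choose p hp using hp
  obtain ⟨B, hB⟩ : ∃ B : S2 → S3 → Prop, B = fun y z' =>
      ¬ ∃ q, D.LQ y z0 p0 q ∧ D.LQ y z' (p z') q := ⟨_, rfl⟩
  have hBavg : 𝔼 z', 𝔼 y, ind (B y z') ≤ 28 * δ := by
    have h2 : ∀ z', 𝔼 y, ind (B y z') ≤ 1 - 𝔼 x, 𝔼 y, ind (D.Gd x y z0 z' p0) := by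
      intro z'
      have h3 : 𝔼 y, ind (B y z') ≤ 𝔼 y, (1 - ind (D.Gd (X z') y z0 z' p0)) := by
        refine expect_le_expect fun y _ => ?_
        rw [← ind_not]
        refine ind_mono fun h => ?_
        rw [hB] at h
        exact fun h' => h (hp z' y h')
      rw [expect_sub_distrib, Fintype.expect_const] at h3
      have := hX z'
      linarith
    have h3 : 𝔼 z', 𝔼 y, ind (B y z') ≤
        𝔼 z', (1 - 𝔼 x, 𝔼 y, ind (D.Gd x y z0 z' p0)) := expect_le_expect fun z' _ => h2 z'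
    rw [expect_sub_distrib, Fintype.expect_const] at h3
    have h4 : 𝔼 z', 𝔼 x, 𝔼 y, ind (D.Gd x y z0 z' p0) =
        𝔼 x, 𝔼 y, 𝔼 z', ind (D.Gd x y z0 z' p0) := by
      rw [expect_comm]
      exact expect_congr rfl fun x _ => expect_comm _ _ _
    rw [h4] at h3
    linarith
  -- the extension
  have hext : ∀ Z : Finset S3, Z.Nonempty → ∑ z ∈ Z, 𝔼 y, ind (B y z) ≤ 1 / 2 →
      ∃ u, ∀ z ∈ Z, K.c z u = p z := by
    intro Z hne hZn
    refine hE Z p ?_
    have h2 : ∀ y, 1 - ∑ z ∈ Z, ind (B y z) ≤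
        ind (∃ q, ∀ z ∈ Z, K.c2 z q = K.b3 y (p z)) := by
      intro y
      by_cases h : ∃ z ∈ Z, B y z
      · obtain ⟨z, hz, hz'⟩ := h
        have h3 : ind (B y z) ≤ ∑ z ∈ Z, ind (B y z) :=
          single_le_sum (f := fun z => ind (B y z)) (fun z _ => ind_nn _) hz
        have h4 : ind (B y z) = 1 := by unfold ind; rw [if_pos hz']
        have := ind_nn (∃ q, ∀ z ∈ Z, K.c2 z q = K.b3 y (p z))
        linarith
      · push Not at h
        have h3 : 0 ≤ ∑ z ∈ Z, ind (B y z) := sum_nonneg fun z _ => ind_nn _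
        have h4 : ∃ q, ∀ z ∈ Z, K.c2 z q = K.b3 y (p z) := by
          obtain ⟨z1, hz1⟩ := hne
          have h5 := h z1 hz1
          rw [hB] at h5
          push Not at h5
          obtain ⟨q, hq1, hq2⟩ := h5
          refine ⟨q, fun z hz => ?_⟩
          have h6 := h z hz
          rw [hB] at h6
          push Not at h6
          obtain ⟨q', hq1', hq2'⟩ := h6
          have e1 : q' = q := hq1'.ru hq1
          rw [e1] at hq2'
          exact hq2'.2.2.1.symm
        have h5 : ind (∃ q, ∀ z ∈ Z, K.c2 z q = K.b3 y (p z)) = 1 := by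
          unfold ind
          rw [if_pos h4]
        linarith
    have h3 : 𝔼 y, (1 - ∑ z ∈ Z, ind (B y z)) ≤
        𝔼 y, ind (∃ q, ∀ z ∈ Z, K.c2 z q = K.b3 y (p z)) :=
      expect_le_expect fun y _ => h2 y
    rw [expect_sub_distrib, Fintype.expect_const, expect_sum_comm] at h3
    linarith
  -- the values are in the supports
  have hsupp : ∀ z, 𝔼 y, ind (B y z) ≤ 1 / 2 → p z ∈ su (D.P z) := by
    intro z hz
    have h2 : ∃ y, ¬ B y z := by
      by_contra hno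
      push Not at hno
      have h3 : 𝔼 y : S2, ind (B y z) = 1 := by
        have : ∀ y, ind (B y z) = 1 := fun y => by unfold ind; rw [if_pos (hno y)]
        simp only [this, Fintype.expect_const]
      rw [h3] at hz
      linarith
    obtain ⟨y, hy⟩ := h2
    rw [hB] at hy
    push Not at hy
    obtain ⟨q, -, hq⟩ := hy
    exact hq.1
  have hcS : (0 : ℝ) < Fintype.card S3 := by exact_mod_cast Fintype.card_pos
  have hsumB : ∑ z, 𝔼 y, ind (B y z) ≤ Fintype.card S3 * (28 * δ) := by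
    have h2 : (Fintype.card S3 : ℝ) * 𝔼 z, 𝔼 y, ind (B y z) = ∑ z, 𝔼 y, ind (B y z) :=
      Fintype.card_mul_expect _
    rw [← h2]
    exact mul_le_mul_of_nonneg_left hBavg hcS.le
  rcases lt_or_ge (Fintype.card S3) (2 * n) with hsmall | hbig
  · -- few seeds
    have hsm : (Fintype.card S3 : ℝ) ≤ 2 * n := by exact_mod_cast hsmall.le
    have h2 : ∑ z, 𝔼 y, ind (B y z) ≤ 1 / 2 := by
      refine hsumB.trans ((mul_le_mul_of_nonneg_right hsm (by linarith)).trans ?_)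
      nlinarith
    obtain ⟨u, hu⟩ := hext univ univ_nonempty h2
    refine ⟨u, ?_⟩
    have h3 : ∀ z, ind (K.c z u ∈ su (D.P z)) = 1 := by
      intro z
      have h4 : 𝔼 y, ind (B y z) ≤ 1 / 2 :=
        (single_le_sum (f := fun z => 𝔼 y, ind (B y z))
          (fun z _ => expect_nonneg fun y _ => ind_nn _) (mem_univ z)).trans h2
      unfold ind
      rw [if_pos]
      rw [hu z (mem_univ z)]
      exact hsupp z h4
    simp only [h3, Fintype.expect_const]
    norm_num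
  -- many seeds
  obtain ⟨τ, hτ⟩ : ∃ τ : ℝ, τ = 1 / (2 * (n + 1)) := ⟨_, rfl⟩
  have hτ0 : 0 < τ := by rw [hτ]; positivity
  have hτn : (n + 1) * τ = 1 / 2 := by
    rw [hτ]
    field_simp
  have hτh : τ ≤ 1 / 2 := by nlinarith
  obtain ⟨Zg, hZg⟩ : ∃ Zg : Finset S3, Zg = sep univ fun z' => 𝔼 y, ind (B y z') ≤ τ :=
    ⟨_, rfl⟩
  have hmem : ∀ z', z' ∈ Zg ↔ 𝔼 y, ind (B y z') ≤ τ := fun z' => by
    rw [hZg, mem_sep]
    simp
  have hbad : 𝔼 z', ind (z' ∉ Zg) ≤ 1 / 4 := by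
    have h2 : 𝔼 z', (τ * ind (z' ∉ Zg)) ≤ 𝔼 z', 𝔼 y, ind (B y z') := by
      refine expect_le_expect fun z' _ => ?_
      by_cases h : z' ∈ Zg
      · have : ind (z' ∉ Zg) = 0 := by unfold ind; rw [if_neg (not_not.2 h)]
        rw [this, mul_zero]
        exact expect_nonneg fun y _ => ind_nn _
      · have : ind (z' ∉ Zg) = 1 := by unfold ind; rw [if_pos h]
        rw [this, mul_one]
        rw [hmem, not_le] at h
        exact h.le
    rw [← mul_expect] at h2
    have h3 : τ * 𝔼 z', ind (z' ∉ Zg) ≤ 28 * δ := h2.trans hBavg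
    by_contra h4
    push Not at h4
    have h5 : τ * (1 / 4) < τ * 𝔼 z', ind (z' ∉ Zg) := mul_lt_mul_of_pos_left h4 hτ0
    have h6 : τ * (1 / 4) < 28 * δ := by linarith
    have h7 : (n + 1) * (τ * (1 / 4)) < (n + 1) * (28 * δ) :=
      mul_lt_mul_of_pos_left h6 (by linarith)
    nlinarith
  have hgood : 3 / 4 ≤ 𝔼 z', ind (z' ∈ Zg) := by
    have h2 : 𝔼 z', ind (z' ∉ Zg) = 1 - 𝔼 z', ind (z' ∈ Zg) := by
      simp only [ind_not, expect_sub_distrib, Fintype.expect_const]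
    linarith
  have hcard : n ≤ Zg.card := by
    have h2 : 𝔼 z', ind (z' ∈ Zg) = (Zg.card : ℝ) / Fintype.card S3 := by
      rw [Fintype.expect_eq_sum_div_card, ← card_sep]
      congr 3
      ext z
      rw [mem_sep]
      simp
    rw [h2, le_div_iff₀ hcS] at hgood
    have h3 : (2 * n : ℝ) ≤ Fintype.card S3 := by exact_mod_cast hbig
    have h4 : (n : ℝ) ≤ Zg.card := by linarith
    exact_mod_cast h4
  have hext' : ∀ Z : Finset S3, Z ⊆ Zg → Z.Nonempty → Z.card ≤ n + 1 →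
      ∃ u, ∀ z ∈ Z, K.c z u = p z := by
    intro Z hZ hne hZn
    refine hext Z hne ?_
    have h5 : ∑ z ∈ Z, 𝔼 y, ind (B y z) ≤ ∑ _z ∈ Z, τ :=
      sum_le_sum fun z hz => (hmem z).1 (hZ hz)
    rw [sum_const, nsmul_eq_mul] at h5
    refine h5.trans ?_
    rw [← hτn]
    refine mul_le_mul_of_nonneg_right ?_ hτ0.le
    exact_mod_cast hZn
  obtain ⟨Z0, hZ0, hZ0n⟩ := exists_subset_card_eq hcard
  have hne0 : Z0.Nonempty := by
    rw [← card_pos]
    omega
  obtain ⟨u, hu⟩ := hext' Z0 hZ0 hne0 (by omega)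
  refine ⟨u, hgood.trans (expect_le_expect fun z _ => ind_mono fun hz => ?_)⟩
  obtain ⟨u', hu'⟩ := hext' (insert z Z0) (insert_subset hz hZ0) (insert_nonempty _ _)
    ((card_insert_le _ _).trans (by omega))
  have e1 : u' = u := hI Z0 hZ0n u' u fun z' hz' => by
    rw [hu z' hz', hu' z' (mem_insert_of_mem hz')]
  rw [← e1, hu' z (mem_insert_self _ _)]
  exact hsupp z (((hmem z).1 hz).trans hτh)

theorem glue5_aux (HL : Loss K δ W0) (h0 : 0 < δ) (hn : 1 ≤ n)
    (hδn : (250 * (n + 1) + 2) * δ < 1) (hI : Inj K n)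
    (hE : ExtD K δ) (hW : 2 * W + 1 ≤ W0) : ∀ (N : ℕ) (D : Dat K), D.Sz W0 →
      ∑ z, (su (D.P z)).card ≤ N → D.A ≤ W → ∃ U : E → ZMod 2,
        (∀ z, push (K.c z) U = D.P z) ∧ (∀ y, push (K.b y) U = D.Q y) ∧
        (∀ x, push (K.a x) U = D.R x) ∧ ((su U).card : ℝ) ≤ 2 * D.A := by
  have hn1 : (1 : ℝ) ≤ n := by exact_mod_cast hn
  have hδ : δ ≤ 1 / 500 := by
    by_contra h
    push Not at h
    nlinarith
  have hS3 : (0 : ℝ) < Fintype.card S3 := by exact_mod_cast Fintype.card_pos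
  have hbase : ∀ D : Dat K, D.Sz W0 → D.A ≤ 0 → ∃ U : E → ZMod 2,
      (∀ z, push (K.c z) U = D.P z) ∧ (∀ y, push (K.b y) U = D.Q y) ∧
      (∀ x, push (K.a x) U = D.R x) ∧ ((su U).card : ℝ) ≤ 2 * D.A := by
    intro D hs hA
    have key : ∀ t : ℕ, (1 - 2 * δ) * ((1 - 2 * δ) * (t : ℝ)) ≤ D.A → t = 0 := by
      intro t ht
      by_contra hne
      have h1 : (1 : ℝ) ≤ t := by exact_mod_cast Nat.one_le_iff_ne_zero.2 hne
      have h2 : 0 < 1 - 2 * δ := by linarith
      have h3 : 0 < (1 - 2 * δ) * ((1 - 2 * δ) * (t : ℝ)) := by positivity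
      linarith
    have key' : ∀ t : ℕ, (1 - 2 * δ) * (t : ℝ) ≤ D.A → t = 0 := fun t ht => key t
      ((mul_le_mul_of_nonneg_left ht (by linarith)).trans (by nlinarith))
    have hP : ∀ z, D.P z = 0 := fun z =>
      su_empty.1 (card_eq_zero.1 (key _ (Dat.p_le HL hs (by linarith) z)))
    have hQ : ∀ y, D.Q y = 0 := fun y =>
      su_empty.1 (card_eq_zero.1 (key' _ (Dat.q_le HL hs y)))
    have hR : ∀ x, D.R x = 0 := fun x =>
      su_empty.1 (card_eq_zero.1 (key' _ (Dat.r_le HL hs x)))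
    refine ⟨0, fun z => ?_, fun y => ?_, fun x => ?_, ?_⟩
    · rw [push_zero, hP]
    · rw [push_zero, hQ]
    · rw [push_zero, hR]
    · have h1 : 0 ≤ D.A := Dat.A_nn
      rw [su_zero]
      simp only [card_empty, Nat.cast_zero]
      linarith
  intro N
  induction N with
  | zero =>
    intro D hs hN hA
    refine hbase D hs ?_
    have h1 := D.sum_eq
    have h2 : ((∑ z, (su (D.P z)).card : ℕ) : ℝ) ≤ 0 := by exact_mod_cast hN
    rw [h1] at h2
    by_contra h3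
    push Not at h3
    nlinarith [mul_pos hS3 h3]
  | succ N ih =>
    intro D hs hN hA
    rcases le_or_gt D.A 0 with hA0 | hA0
    · exact hbase D hs hA0
    obtain ⟨u, hu⟩ := Dat.point5 HL hs h0 hA0 hn hδn hI hE
    obtain ⟨M, hM⟩ : ∃ M, M = D.A / (1 - 2 * δ) ^ 2 := ⟨_, rfl⟩
    obtain ⟨bp, bq, br⟩ := Dat.bds HL hs h0.le (by linarith) hM
    have hMW : M ≤ 2 * W := by
      rw [hM, div_le_iff₀ (by
        have : 0 < 1 - 2 * δ := by linarith
        positivity)]
      have h3 : 1 / 2 ≤ (1 - 2 * δ) ^ 2 := by nlinarith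
      have h4 := mul_le_mul_of_nonneg_left h3 (Nat.cast_nonneg (α := ℝ) W)
      linarith
    have hsz : ∀ t : ℕ, (t : ℝ) ≤ M → t + 1 ≤ W0 := fun t ht => by
      have h1 : (t : ℝ) ≤ ((2 * W : ℕ) : ℝ) := by
        push_cast
        linarith
      have h2 : t ≤ 2 * W := by exact_mod_cast h1
      omega
    have hs' : (D.sub u).Sz W0 :=
      ⟨fun z => (sz_sub' _ _).trans (hsz _ (bp z)), fun y => (sz_sub' _ _).trans (hsz _ (bq y)),
        fun x => (sz_sub' _ _).trans (hsz _ (br x))⟩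
    have hA' : (D.sub u).A ≤ D.A - 1 / 2 := by
      have h1 : (D.sub u).A ≤ 𝔼 z, (((su (D.P z)).card : ℝ) + 1 - 2 * ind (K.c z u ∈ su (D.P z))) :=
        expect_le_expect fun z _ => sz_sub _ _
      rw [expect_sub_distrib, expect_add_distrib, Fintype.expect_const, ← mul_expect] at h1
      have h2 : D.A = 𝔼 z, ((su (D.P z)).card : ℝ) := rfl
      rw [← h2] at h1
      linarith
    have hN' : ∑ z, (su ((D.sub u).P z)).card ≤ N := by
      have h1 := D.sum_eq
      have h2 := (D.sub u).sum_eq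
      have h3 : ((∑ z, (su ((D.sub u).P z)).card : ℕ) : ℝ) < ((∑ z, (su (D.P z)).card : ℕ) : ℝ) := by
        rw [h1, h2]
        exact mul_lt_mul_of_pos_left (by linarith) hS3
      have h4 : ∑ z, (su ((D.sub u).P z)).card < ∑ z, (su (D.P z)).card := by exact_mod_cast h3
      omega
    obtain ⟨U, g1, g2, g3, g4⟩ := ih (D.sub u) hs' hN' (by linarith)
    refine ⟨U + Pi.single u 1, fun z => ?_, fun y => ?_, fun x => ?_, ?_⟩
    · rw [push_add, push_single, g1]
      exact add_single_twice _ _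
    · rw [push_add, push_single, g2]
      exact add_single_twice _ _
    · rw [push_add, push_single, g3]
      exact add_single_twice _ _
    · have h1 : ((su (U + Pi.single u 1)).card : ℝ) ≤ (su U).card + 1 := by
        exact_mod_cast sz_sub' U u
      linarith

/-- **The gluing lemma in three coordinates.** -/
theorem glue5 (HL : Loss K δ W0) (h0 : 0 < δ) (hn : 1 ≤ n)
    (hδn : (250 * (n + 1) + 2) * δ < 1) (hI : Inj K n)
    (hE : ExtD K δ) (hW : 2 * W + 1 ≤ W0) (D : Dat K) (hs : D.Sz W) : ∃ U : E → ZMod 2,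
      (∀ z, push (K.c z) U = D.P z) ∧ (∀ y, push (K.b y) U = D.Q y) ∧
      (∀ x, push (K.a x) U = D.R x) ∧ (su U).card ≤ 2 * W := by
  have hA : D.A ≤ W := ex_le fun z => by exact_mod_cast hs.p z
  have hWW : W ≤ W0 := by omega
  obtain ⟨U, g1, g2, g3, g4⟩ := glue5_aux HL h0 hn hδn hI hE hW _ D
    ⟨fun z => (hs.p z).trans hWW, fun y => (hs.q y).trans hWW, fun x => (hs.r x).trans hWW⟩
    le_rfl hA
  refine ⟨U, g1, g2, g3, ?_⟩
  have h2 : ((su U).card : ℝ) ≤ ((2 * W : ℕ) : ℝ) := by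
    push_cast
    linarith [Nat.cast_nonneg (α := ℝ) W]
  exact_mod_cast h2

end glue

end Vale.Agent.P318.H891
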