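import Mathlib

/-!
# P318, gluing: isolated elements

`Iso φ U u`: the element `u` is the only one of `U` above `φ u`. `Cond φ δ W`: on the average over the
seeds a set of at most `W` elements loses at most the fraction `δ` of its elements.
-/

set_option autoImplicit false

namespace Vale.Agent.P318.H891

open Finset
open scoped BigOperators Classical

variable {S T E E' E'' F : Type*}

/-- `u` is the only element of `U` above `φ u`. -/
def Iso (φ : E → E') (U : Finset E) (u : E) : Prop := ∀ v ∈ U, φ v = φ u → v = u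

/-- The elements of `U` which are not isolated. -/
noncomputable def non (φ : E → E') (U : Finset E) : Finset E := U.filter fun u => ¬ Iso φ U u

theorem mem_non {φ : E → E'} {U : Finset E} {u : E} : u ∈ non φ U ↔ u ∈ U ∧ ¬ Iso φ U u := by
  unfold non
  rw [mem_filter]

theorem non_sub (φ : E → E') (U : Finset E) : non φ U ⊆ U := filter_subset _ _

/-- The number of elements which are not isolated. -/
theorem non_card (φ : E → E') (U : Finset E) :
    ((non φ U).card : ℝ) ≤ 2 * (U.card - (U.image φ).card) := by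
  have h1 : U.card = ∑ e ∈ U.image φ, (U.filter fun u => φ u = e).card :=
    card_eq_sum_card_image φ U
  have h2 : (non φ U).card = ∑ e ∈ U.image φ, ((non φ U).filter fun u => φ u = e).card :=
    card_eq_sum_card_fiberwise fun u hu => mem_image_of_mem φ (mem_filter.1 hu).1
  have h3 : ∀ e ∈ U.image φ, ((non φ U).filter fun u => φ u = e).card + 2 ≤
      2 * (U.filter fun u => φ u = e).card := by
    intro e he
    obtain ⟨u, hu, hue⟩ := mem_image.1 he
    have hu' : u ∈ U.filter fun u => φ u = e := mem_filter.2 ⟨hu, hue⟩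
    have hpos : 0 < (U.filter fun u => φ u = e).card := card_pos.2 ⟨u, hu'⟩
    have hsub : ((non φ U).filter fun u => φ u = e).card ≤ (U.filter fun u => φ u = e).card :=
      card_le_card (filter_subset_filter _ (non_sub φ U))
    by_cases h : 2 ≤ (U.filter fun u => φ u = e).card
    · omega
    · have h4 : (U.filter fun u => φ u = e).card = 1 := by omega
      obtain ⟨w, hw⟩ := card_eq_one.1 h4
      have h5 : (non φ U).filter (fun u => φ u = e) = ∅ := by
        rw [filter_eq_empty_iff]
        intro v hv hve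
        obtain ⟨hv1, hv2⟩ := mem_non.1 hv
        apply hv2
        intro w' hw' hwe
        have e1 : v ∈ U.filter fun u => φ u = e := mem_filter.2 ⟨hv1, hve⟩
        have e2 : w' ∈ U.filter fun u => φ u = e := mem_filter.2 ⟨hw', hwe.trans hve⟩
        rw [hw, mem_singleton] at e1 e2
        rw [e1, e2]
      rw [h5, card_empty]
      omega
  have h4 : (non φ U).card + 2 * (U.image φ).card ≤ 2 * U.card := by
    have h5 := sum_le_sum h3
    rw [sum_add_distrib, sum_const, smul_eq_mul, ← mul_sum, ← h1, ← h2] at h5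
    omega
  have h5 : ((non φ U).card : ℝ) + 2 * ((U.image φ).card : ℝ) ≤ 2 * (U.card : ℝ) := by
    exact_mod_cast h4
  linarith

/-- **The condenser property.** -/
def Cond [Fintype S] (φ : S → E → E') (δ : ℝ) (W : ℕ) : Prop :=
  ∀ U : Finset E, U.card ≤ W → (1 - δ) * U.card ≤ 𝔼 s, ((U.image (φ s)).card : ℝ)

theorem Cond.mono [Fintype S] {φ : S → E → E'} {δ : ℝ} {W W' : ℕ} (h : Cond φ δ W) (hW : W' ≤ W) :
    Cond φ δ W' := fun U hU => h U (hU.trans hW)

theorem Cond.non_le [Fintype S] [Nonempty S] {φ : S → E → E'} {δ : ℝ} {W : ℕ} (h : Cond φ δ W)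
    {U : Finset E} (hU : U.card ≤ W) : 𝔼 s, ((non (φ s) U).card : ℝ) ≤ 2 * δ * U.card := by
  have h1 : 𝔼 s, ((non (φ s) U).card : ℝ) ≤
      𝔼 s, (2 * ((U.card : ℝ) - ((U.image (φ s)).card : ℝ))) :=
    expect_le_expect fun s _ => non_card (φ s) U
  have h2 : 𝔼 s, (2 * ((U.card : ℝ) - ((U.image (φ s)).card : ℝ))) =
      2 * ((U.card : ℝ) - 𝔼 s, ((U.image (φ s)).card : ℝ)) := by
    rw [← mul_expect, expect_sub_distrib, Fintype.expect_const]
  rw [h2] at h1
  have h3 := h U hU
  linarith

/-- Two condensers. -/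
theorem Cond.comp_le [Fintype S] [Fintype T] [Nonempty S] [Nonempty T] {φ : S → E → E'}
    {ψ : T → E' → E''} {δ : ℝ} {W : ℕ} (h : Cond φ δ W) (h' : Cond ψ δ W) (hδ : δ ≤ 1)
    {U : Finset E} (hU : U.card ≤ W) :
    𝔼 t, 𝔼 s, ((non (fun u => ψ t (φ s u)) U).card : ℝ) ≤ 4 * δ * U.card := by
  have h1 : 𝔼 t, 𝔼 s, ((non (fun u => ψ t (φ s u)) U).card : ℝ) ≤
      𝔼 t, 𝔼 s, (2 * ((U.card : ℝ) - (((U.image (φ s)).image (ψ t)).card : ℝ))) :=
    expect_le_expect fun t _ => expect_le_expect fun s _ => by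
      have := non_card (fun u => ψ t (φ s u)) U
      rwa [show U.image (fun u => ψ t (φ s u)) = (U.image (φ s)).image (ψ t) by
        rw [image_image]; rfl] at this
  have h2 : 𝔼 t, 𝔼 s, (2 * ((U.card : ℝ) - (((U.image (φ s)).image (ψ t)).card : ℝ))) =
      2 * ((U.card : ℝ) - 𝔼 s, 𝔼 t, (((U.image (φ s)).image (ψ t)).card : ℝ)) := by
    rw [expect_comm, mul_sub]
    simp only [← mul_expect, expect_sub_distrib, Fintype.expect_const, mul_sub]
  have h3 : (1 - δ) * 𝔼 s, ((U.image (φ s)).card : ℝ) ≤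
      𝔼 s, 𝔼 t, (((U.image (φ s)).image (ψ t)).card : ℝ) := by
    rw [mul_expect]
    exact expect_le_expect fun s _ => h' _ (card_image_le.trans hU)
  have h4 := h U hU
  have h5 : (1 - δ) * ((1 - δ) * U.card) ≤ (1 - δ) * 𝔼 s, ((U.image (φ s)).card : ℝ) :=
    mul_le_mul_of_nonneg_left h4 (by linarith)
  have h6 : (0 : ℝ) ≤ δ ^ 2 * U.card := by positivity
  rw [h2] at h1
  nlinarith

end Vale.Agent.P318.H891
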