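import Vale.Agent.P318.H891.Push

/-!
# P318, gluing: links

`Lk f g U V p q`: the elements `p ∈ U`, `q ∈ V` are above the same point, and each is the only one there.
`Cube`, `Dat`: the operators in the three coordinates and consistent measures. `Gd`: the link of `p` with
`p'` exists in both ways and is the same. `Dat.count`: the number of the others.
-/

set_option autoImplicit false
set_option linter.unusedSectionVars false

namespace Vale.Agent.P318.H891

open Finset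
open scoped BigOperators Classical

section link

variable {A B C : Type*} {f : A → C} {g : B → C} {U : Finset A} {V : Finset B} {p p' : A} {q q' : B}

/-- The elements of `U` with the property `P`. -/
noncomputable def sep {α : Type*} (U : Finset α) (P : α → Prop) : Finset α :=
  @Finset.filter α P (Classical.decPred P) U

theorem mem_sep {α : Type*} {U : Finset α} {P : α → Prop} {x : α} : x ∈ sep U P ↔ x ∈ U ∧ P x := by
  unfold sep
  rw [mem_filter]

/-- The elements `p ∈ U`, `q ∈ V` are linked. -/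
def Lk (f : A → C) (g : B → C) (U : Finset A) (V : Finset B) (p : A) (q : B) : Prop :=
  p ∈ U ∧ q ∈ V ∧ f p = g q ∧ Iso f U p ∧ Iso g V q

theorem Lk.symm (h : Lk f g U V p q) : Lk g f V U q p :=
  ⟨h.2.1, h.1, h.2.2.1.symm, h.2.2.2.2, h.2.2.2.1⟩

theorem Lk.ru (h : Lk f g U V p q) (h' : Lk f g U V p q') : q = q' :=
  h'.2.2.2.2 q h.2.1 (h.2.2.1.symm.trans h'.2.2.1)

theorem Lk.lu (h : Lk f g U V p q) (h' : Lk f g U V p' q) : p = p' := h.symm.ru h'.symm

variable [Fintype A] [Fintype B] [Fintype C]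

/-- The elements without link. -/
theorem unl_card {μ : A → ZMod 2} {ν : B → ZMod 2} (h : push f μ = push g ν) :
    (sep (su μ) fun p => ¬ ∃ q, Lk f g (su μ) (su ν) p q).card ≤
      (non f (su μ)).card + (non g (su ν)).card := by
  have h1 : (sep (su μ) fun p => ¬ ∃ q, Lk f g (su μ) (su ν) p q) ⊆
      non f (su μ) ∪ sep (su μ) fun p => Iso f (su μ) p ∧ ∃ q ∈ non g (su ν), g q = f p := by
    intro p hp
    rw [mem_sep] at hp
    rw [mem_union, mem_non, mem_sep]
    by_cases hi : Iso f (su μ) p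
    · right
      refine ⟨hp.1, hi, ?_⟩
      have h2 : f p ∈ su (push g ν) := by
        rw [← h]
        exact iso_su hp.1 hi
      obtain ⟨q, hq, hqp⟩ := su_push g ν h2
      refine ⟨q, mem_non.2 ⟨hq, fun hq' => hp.2 ⟨q, hp.1, hq, hqp.symm, hi, hq'⟩⟩, hqp⟩
    · exact Or.inl ⟨hp.1, hi⟩
  refine (card_le_card h1).trans ((card_union_le _ _).trans (Nat.add_le_add_left ?_ _))
  refine card_le_card_of_forall_subsingleton (fun p q => g q = f p ∧ Iso f (su μ) p ∧ p ∈ su μ)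
    (fun p hp => ?_) fun q _ p hp p' hp' => ?_
  · obtain ⟨hp1, hp2, q, hq, hqp⟩ := mem_sep.1 hp
    exact ⟨q, hq, hqp, hp2, hp1⟩
  · exact hp'.2.2.1 p hp.2.2.2 (hp.2.1.symm.trans hp'.2.1)

/-- A bound for the number of elements by an injective relation. -/
theorem rel_card {α β : Type*} {s : Finset α} {t : Finset β} {P : α → Prop} {r : α → β → Prop}
    (h : ∀ a ∈ s, P a → ∃ b ∈ t, r a b) (hr : ∀ a a' b, r a b → r a' b → a = a') :
    (sep s P).card ≤ t.card := by
  refine card_le_card_of_forall_subsingleton r (fun a ha => ?_) fun b _ a ha a' ha' => ?_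
  · obtain ⟨h1, h2⟩ := mem_sep.1 ha
    exact h a h1 h2
  · exact hr a a' b ha.2 ha'.2

/-- The elements whose partner has no link. -/
theorem unl_card2 {A' C' : Type*} [Fintype A'] [Fintype C'] {f' : A' → C'} {g' : B → C'}
    {U : Finset A} {μ' : A' → ZMod 2} {ν : B → ZMod 2} (h : push f' μ' = push g' ν) :
    (sep U fun p => ∃ q, Lk f g U (su ν) p q ∧ ¬ ∃ p', Lk f' g' (su μ') (su ν) p' q).card ≤
      (non g' (su ν)).card + (non f' (su μ')).card := by
  have h1 := unl_card h.symm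
  refine (rel_card (t := sep (su ν) fun q => ¬ ∃ p', Lk g' f' (su ν) (su μ') q p')
    (r := fun p q => Lk f g U (su ν) p q) (fun p _ hp => ?_)
    fun p p' q h h' => h.lu h').trans h1
  obtain ⟨q, h2, h3⟩ := hp
  exact ⟨q, mem_sep.2 ⟨h2.2.1, fun ⟨p', h4⟩ => h3 ⟨p', h4.symm⟩⟩, h2⟩

end link

section cube

/-- The operators in three coordinates. -/
structure Cube (S1 S2 S3 E E1 E2 E3 E12 E13 E23 E123 : Type*) where
  /-- first coordinate -/
  a : S1 → E → E1
  /-- second coordinate -/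
  b : S2 → E → E2
  /-- third coordinate -/
  c : S3 → E → E3
  /-- second coordinate on `E1` -/
  b1 : S2 → E1 → E12
  /-- third coordinate on `E1` -/
  c1 : S3 → E1 → E13
  /-- first coordinate on `E2` -/
  a2 : S1 → E2 → E12
  /-- third coordinate on `E2` -/
  c2 : S3 → E2 → E23
  /-- first coordinate on `E3` -/
  a3 : S1 → E3 → E13
  /-- second coordinate on `E3` -/
  b3 : S2 → E3 → E23
  /-- third coordinate on `E12` -/
  c12 : S3 → E12 → E123
  /-- second coordinate on `E13` -/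
  b13 : S2 → E13 → E123
  /-- first coordinate on `E23` -/
  a23 : S1 → E23 → E123
  ab : ∀ x y e, b1 y (a x e) = a2 x (b y e)
  ac : ∀ x z e, c1 z (a x e) = a3 x (c z e)
  bc : ∀ y z e, c2 z (b y e) = b3 y (c z e)
  f1 : ∀ y z e, c12 z (b1 y e) = b13 y (c1 z e)
  f2 : ∀ x z e, c12 z (a2 x e) = a23 x (c2 z e)
  f3 : ∀ x y e, b13 y (a3 x e) = a23 x (b3 y e)

variable {S1 S2 S3 E E1 E2 E3 E12 E13 E23 E123 : Type*}
  [Fintype E] [Fintype E1] [Fintype E2] [Fintype E3] [Fintype E12] [Fintype E13] [Fintype E23]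
  [Fintype E123]

/-- Consistent measures. -/
structure Dat (K : Cube S1 S2 S3 E E1 E2 E3 E12 E13 E23 E123) where
  /-- third coordinate compressed -/
  P : S3 → E3 → ZMod 2
  /-- second coordinate compressed -/
  Q : S2 → E2 → ZMod 2
  /-- first coordinate compressed -/
  R : S1 → E1 → ZMod 2
  hbc : ∀ y z, push (K.b3 y) (P z) = push (K.c2 z) (Q y)
  hac : ∀ x z, push (K.a3 x) (P z) = push (K.c1 z) (R x)
  hab : ∀ x y, push (K.a2 x) (Q y) = push (K.b1 y) (R x)

variable {K : Cube S1 S2 S3 E E1 E2 E3 E12 E13 E23 E123} (D : Dat K)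

/-- The links between `P z` and `Q y`. -/
def Dat.LQ (y : S2) (z : S3) (p : E3) (q : E2) : Prop :=
  Lk (K.b3 y) (K.c2 z) (su (D.P z)) (su (D.Q y)) p q

/-- The links between `P z` and `R x`. -/
def Dat.LR (x : S1) (z : S3) (p : E3) (r : E1) : Prop :=
  Lk (K.a3 x) (K.c1 z) (su (D.P z)) (su (D.R x)) p r

/-- The links exist and agree. -/
def Dat.Gd (x : S1) (y : S2) (z z' : S3) (p : E3) : Prop :=
  ∃ q r p', D.LQ y z p q ∧ D.LQ y z' p' q ∧ D.LR x z p r ∧ D.LR x z' p' r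

/-- The number of elements which are not isolated, second coordinate on `P`. -/
noncomputable def Dat.N1 (y : S2) (z : S3) : ℕ := (non (K.b3 y) (su (D.P z))).card

/-- Third coordinate on `Q`. -/
noncomputable def Dat.N2 (y : S2) (z : S3) : ℕ := (non (K.c2 z) (su (D.Q y))).card

/-- First coordinate on `P`. -/
noncomputable def Dat.N3 (x : S1) (z : S3) : ℕ := (non (K.a3 x) (su (D.P z))).card

/-- Third coordinate on `R`. -/
noncomputable def Dat.N4 (x : S1) (z : S3) : ℕ := (non (K.c1 z) (su (D.R x))).card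

/-- First coordinate on `Q`. -/
noncomputable def Dat.N5 (x : S1) (y : S2) : ℕ := (non (K.a2 x) (su (D.Q y))).card

/-- Second coordinate on `R`. -/
noncomputable def Dat.N6 (x : S1) (y : S2) : ℕ := (non (K.b1 y) (su (D.R x))).card

/-- Third coordinate on the image of `Q`. -/
noncomputable def Dat.N7 (x : S1) (y : S2) (z : S3) : ℕ :=
  (non (K.c12 z) (su (push (K.a2 x) (D.Q y)))).card

/-- First and second coordinate on `P`. -/
noncomputable def Dat.N8 (x : S1) (y : S2) (z : S3) : ℕ :=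
  (non (fun p => K.a23 x (K.b3 y p)) (su (D.P z))).card

/-- **The number of the elements which are not good.** -/
theorem Dat.count (x : S1) (y : S2) (z z' : S3) : (su (D.P z)).card ≤
    (sep (su (D.P z)) fun p => D.Gd x y z z' p).card +
      ((D.N1 y z + D.N2 y z) + (D.N2 y z' + D.N1 y z') + (D.N3 x z + D.N4 x z) +
        (D.N4 x z' + D.N3 x z') + D.N5 x y + D.N6 x y + D.N7 x y z + D.N8 x y z') := by
  obtain ⟨U, hU⟩ : ∃ U, U = su (D.P z) := ⟨_, rfl⟩
  have c1 : (sep U fun p => ¬ ∃ q, D.LQ y z p q).card ≤ D.N1 y z + D.N2 y z := by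
    rw [hU]
    exact unl_card (D.hbc y z)
  have c2 : (sep U fun p => ∃ q, D.LQ y z p q ∧ ¬ ∃ p', D.LQ y z' p' q).card ≤
      D.N2 y z' + D.N1 y z' := by
    rw [hU]
    exact unl_card2 (D.hbc y z')
  have c3 : (sep U fun p => ¬ ∃ r, D.LR x z p r).card ≤ D.N3 x z + D.N4 x z := by
    rw [hU]
    exact unl_card (D.hac x z)
  have c4 : (sep U fun p => ∃ r, D.LR x z p r ∧ ¬ ∃ p', D.LR x z' p' r).card ≤
      D.N4 x z' + D.N3 x z' := by
    rw [hU]
    exact unl_card2 (D.hac x z')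
  have c5 : (sep U fun p => ∃ q, D.LQ y z p q ∧ q ∈ non (K.a2 x) (su (D.Q y))).card ≤
      D.N5 x y :=
    rel_card (r := fun p q => D.LQ y z p q) (fun p _ ⟨q, h1, h2⟩ => ⟨q, h2, h1⟩)
      fun p p' q h h' => h.lu h'
  have c6 : (sep U fun p => ∃ r, D.LR x z p r ∧ r ∈ non (K.b1 y) (su (D.R x))).card ≤
      D.N6 x y :=
    rel_card (r := fun p q => D.LR x z p q) (fun p _ ⟨q, h1, h2⟩ => ⟨q, h2, h1⟩)
      fun p p' q h h' => h.lu h'
  have c7 : (sep U fun p => ∃ q, D.LQ y z p q ∧ Iso (K.a2 x) (su (D.Q y)) q ∧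
      K.a2 x q ∈ non (K.c12 z) (su (push (K.a2 x) (D.Q y)))).card ≤ D.N7 x y z := by
    refine rel_card (r := fun p l => ∃ q, D.LQ y z p q ∧ Iso (K.a2 x) (su (D.Q y)) q ∧
      K.a2 x q = l) (fun p _ ⟨q, h1, h2, h3⟩ => ⟨_, h3, q, h1, h2, rfl⟩) ?_
    rintro p p' l ⟨q, h1, h2, h3⟩ ⟨q', h1', h2', h3'⟩
    have h4 : q = q' := h2' q h1.2.1 (h3.trans h3'.symm)
    rw [← h4] at h1'
    exact h1.lu h1'
  have c8 : (sep U fun p => ∃ q p', D.LQ y z p q ∧ D.LQ y z' p' q ∧
      p' ∈ non (fun p => K.a23 x (K.b3 y p)) (su (D.P z'))).card ≤ D.N8 x y z' := by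
    refine rel_card (r := fun p p' => ∃ q, D.LQ y z p q ∧ D.LQ y z' p' q)
      (fun p _ ⟨q, p', h1, h2, h3⟩ => ⟨p', h3, q, h1, h2⟩) ?_
    rintro p p' l ⟨q, h1, h2⟩ ⟨q', h1', h2'⟩
    have h4 : q = q' := h2.ru h2'
    rw [← h4] at h1'
    exact h1.lu h1'
  rw [← hU]
  have hcov : U ⊆ (sep U fun p => D.Gd x y z z' p) ∪
      ((sep U fun p => ¬ ∃ q, D.LQ y z p q) ∪
      ((sep U fun p => ∃ q, D.LQ y z p q ∧ ¬ ∃ p', D.LQ y z' p' q) ∪
      ((sep U fun p => ¬ ∃ r, D.LR x z p r) ∪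
      ((sep U fun p => ∃ r, D.LR x z p r ∧ ¬ ∃ p', D.LR x z' p' r) ∪
      ((sep U fun p => ∃ q, D.LQ y z p q ∧ q ∈ non (K.a2 x) (su (D.Q y))) ∪
      ((sep U fun p => ∃ r, D.LR x z p r ∧ r ∈ non (K.b1 y) (su (D.R x))) ∪
      ((sep U fun p => ∃ q, D.LQ y z p q ∧ Iso (K.a2 x) (su (D.Q y)) q ∧
        K.a2 x q ∈ non (K.c12 z) (su (push (K.a2 x) (D.Q y)))) ∪
      (sep U fun p => ∃ q p', D.LQ y z p q ∧ D.LQ y z' p' q ∧
        p' ∈ non (fun p => K.a23 x (K.b3 y p)) (su (D.P z')))))))))) := by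
    intro p hp
    simp only [mem_union, mem_sep, hp, true_and]
    by_contra hcon
    push Not at hcon
    obtain ⟨n0, ⟨q, hq⟩, n2, ⟨r, hr⟩, n4, n5, n6, n7, n8⟩ := hcon
    obtain ⟨p', hp'⟩ := n2 q hq
    obtain ⟨p'', hp''⟩ := n4 r hr
    have i5 : Iso (K.a2 x) (su (D.Q y)) q := by
      by_contra h
      exact n5 q hq (mem_non.2 ⟨hq.2.1, h⟩)
    have i6 : Iso (K.b1 y) (su (D.R x)) r := by
      by_contra h
      exact n6 r hr (mem_non.2 ⟨hr.2.1, h⟩)
    have m1 : K.a2 x q ∈ su (push (K.a2 x) (D.Q y)) := iso_su hq.2.1 i5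
    have m2 : K.b1 y r ∈ su (push (K.a2 x) (D.Q y)) := by
      rw [D.hab x y]
      exact iso_su hr.2.1 i6
    have i7 : Iso (K.c12 z) (su (push (K.a2 x) (D.Q y))) (K.a2 x q) := by
      by_contra h
      exact n7 q hq i5 (mem_non.2 ⟨m1, h⟩)
    have i8 : Iso (fun p => K.a23 x (K.b3 y p)) (su (D.P z')) p' := by
      by_contra h
      exact n8 q p' hq hp' (mem_non.2 ⟨hp'.1, h⟩)
    have e1 : K.b1 y r = K.a2 x q := by
      apply i7 _ m2
      rw [K.f1, K.f2, ← hr.2.2.1, ← hq.2.2.1, K.f3]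
    have e2 : p'' = p' := by
      apply i8 _ hp''.1
      show K.a23 x (K.b3 y p'') = K.a23 x (K.b3 y p')
      rw [← K.f3, hp''.2.2.1, ← K.f1, e1, K.f2, ← hp'.2.2.1]
    rw [e2] at hp''
    exact n0 ⟨q, r, p', hq, hp', hr, hp''⟩
  have h1 := card_le_card hcov
  have u : ∀ (s t : Finset E3) (m : ℕ), t.card ≤ m → (s ∪ t).card ≤ s.card + m := fun s t m h =>
    (card_union_le s t).trans (Nat.add_le_add_left h _)
  have h2 := h1.trans (u _ _ _ (u _ _ _ (u _ _ _ (u _ _ _ (u _ _ _ (u _ _ _ (u _ _ _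
    (card_union_le _ _))))))))
  omega

end cube

end Vale.Agent.P318.H891
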