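import Vale.Agent.P318.H891.Iso

/-!
# P318, gluing: measures modulo 2 and their images

`push f μ`: the image of the measure `μ : X → ZMod 2`; `su μ`: the support.
-/

set_option autoImplicit false
set_option linter.unusedSectionVars false

namespace Vale.Agent.P318.H891

open Finset
open scoped BigOperators Classical

variable {S X Y Z : Type*} [Fintype X] [Fintype Y] [Fintype Z]

/-- The image of a measure modulo 2. -/
noncomputable def push (f : X → Y) (μ : X → ZMod 2) : Y → ZMod 2 :=
  fun y => ∑ x ∈ univ.filter (fun x => f x = y), μ x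

/-- The support. -/
noncomputable def su (μ : X → ZMod 2) : Finset X := univ.filter fun x => μ x ≠ 0

theorem mem_su {μ : X → ZMod 2} {x : X} : x ∈ su μ ↔ μ x ≠ 0 := by
  unfold su
  simp

theorem su_zero : su (0 : X → ZMod 2) = ∅ := by
  ext x
  simp [mem_su]

theorem su_empty {μ : X → ZMod 2} : su μ = ∅ ↔ μ = 0 := by
  constructor
  · intro h
    funext x
    by_contra hx
    have : x ∈ su μ := mem_su.2 hx
    rw [h] at this
    exact absurd this (notMem_empty x)
  · rintro rfl
    exact su_zero

theorem push_push (f : X → Y) (g : Y → Z) (μ : X → ZMod 2) :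
    push g (push f μ) = push (fun x => g (f x)) μ := by
  funext z
  unfold push
  rw [← sum_fiberwise_of_maps_to (s := univ.filter fun x => g (f x) = z)
    (t := univ.filter fun y => g y = z) (g := f) (fun x hx => by
      rw [mem_filter] at hx ⊢
      exact ⟨mem_univ _, hx.2⟩)]
  refine sum_congr rfl fun y hy => sum_congr ?_ fun _ _ => rfl
  ext x
  rw [mem_filter] at hy
  simp only [mem_filter, mem_univ, true_and]
  constructor
  · rintro rfl
    exact ⟨hy.2, rfl⟩
  · exact fun h => h.2

theorem push_add (f : X → Y) (μ ν : X → ZMod 2) : push f (μ + ν) = push f μ + push f ν := by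
  funext y
  unfold push
  simp only [Pi.add_apply]
  rw [sum_add_distrib]

theorem push_zero (f : X → Y) : push f (0 : X → ZMod 2) = 0 := by
  funext y
  unfold push
  simp

theorem push_id (μ : X → ZMod 2) : push (fun x => x) μ = μ := by
  funext y
  unfold push
  rw [filter_eq' univ y]
  simp

theorem push_single (f : X → Y) (x : X) :
    push f (Pi.single x (1 : ZMod 2)) = Pi.single (f x) 1 := by
  funext y
  unfold push
  rw [sum_filter]
  simp only [Pi.single_apply]
  rw [sum_eq_single x]
  · by_cases h : f x = y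
    · rw [if_pos h, if_pos rfl, if_pos h.symm]
    · rw [if_neg h, if_neg fun h' => h h'.symm]
  · intro b _ hb
    rw [if_neg hb, ite_self]
  · intro h
    exact absurd (mem_univ _) h

theorem su_push (f : X → Y) (μ : X → ZMod 2) {y : Y} (h : y ∈ su (push f μ)) :
    ∃ x ∈ su μ, f x = y := by
  rw [mem_su] at h
  unfold push at h
  obtain ⟨x, hx, hx'⟩ := exists_ne_zero_of_sum_ne_zero h
  rw [mem_filter] at hx
  exact ⟨x, mem_su.2 hx', hx.2⟩

theorem su_push_sub (f : X → Y) (μ : X → ZMod 2) : su (push f μ) ⊆ (su μ).image f := fun y hy => by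
  obtain ⟨x, hx, rfl⟩ := su_push f μ hy
  exact mem_image_of_mem f hx

theorem sz_push (f : X → Y) (μ : X → ZMod 2) : (su (push f μ)).card ≤ (su μ).card :=
  (card_le_card (su_push_sub f μ)).trans card_image_le

/-- Isolated elements survive. -/
theorem push_iso {f : X → Y} {μ : X → ZMod 2} {x : X} (h : Iso f (su μ) x) :
    push f μ (f x) = μ x := by
  unfold push
  rw [sum_filter, sum_eq_single x]
  · rw [if_pos rfl]
  · intro b _ hb
    split_ifs with h1
    · by_contra h2
      exact hb (h b (mem_su.2 h2) h1)
    · rfl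
  · intro h
    exact absurd (mem_univ _) h

theorem iso_su {f : X → Y} {μ : X → ZMod 2} {x : X} (hx : x ∈ su μ) (h : Iso f (su μ) x) :
    f x ∈ su (push f μ) := by
  rw [mem_su, push_iso h]
  exact mem_su.1 hx

/-- The size of the image. -/
theorem sz_le (f : X → Y) (μ : X → ZMod 2) :
    (su μ).card ≤ (su (push f μ)).card + (non f (su μ)).card := by
  have h1 : ((su μ).filter fun x => Iso f (su μ) x).card ≤ (su (push f μ)).card := by
    refine card_le_card_of_injOn f (fun x hx => ?_) fun x hx y hy hxy => ?_
    · have hx' := mem_filter.1 (mem_coe.1 hx)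
      exact mem_coe.2 (iso_su hx'.1 hx'.2)
    · have hx' := mem_filter.1 (mem_coe.1 hx)
      have hy' := mem_filter.1 (mem_coe.1 hy)
      exact hy'.2 x hx'.1 hxy
  have h2 : ((su μ).filter fun x => Iso f (su μ) x).card + (non f (su μ)).card = (su μ).card :=
    card_filter_add_card_filter_not _
  omega

/-- The size of the image on the average. -/
theorem Cond.sz [Fintype S] [Nonempty S] {f : S → X → Y} {δ : ℝ} {W : ℕ} (h : Cond f δ W)
    {μ : X → ZMod 2} (hμ : (su μ).card ≤ W) :
    (1 - 2 * δ) * (su μ).card ≤ 𝔼 s, ((su (push (f s) μ)).card : ℝ) := by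
  have h1 := h.non_le hμ
  have h2 : 𝔼 s : S, ((su μ).card : ℝ) ≤
      𝔼 s, (((su (push (f s) μ)).card : ℝ) + ((non (f s) (su μ)).card : ℝ)) :=
    expect_le_expect fun s _ => by exact_mod_cast sz_le (f s) μ
  rw [Fintype.expect_const, expect_add_distrib] at h2
  linarith

/-- A measure with trivial images. -/
theorem Cond.zero [Fintype S] [Nonempty S] {f : S → X → Y} {δ : ℝ} {W : ℕ} (h : Cond f δ W)
    (hδ : 2 * δ < 1) {μ : X → ZMod 2} (hμ : (su μ).card ≤ W) (h0 : ∀ s, push (f s) μ = 0) :
    μ = 0 := by
  have h1 := h.sz hμ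
  have h2 : 𝔼 s, ((su (push (f s) μ)).card : ℝ) = 0 := by
    refine expect_eq_zero fun s _ => ?_
    rw [h0 s, su_zero]
    simp
  rw [h2] at h1
  have h3 : ((su μ).card : ℝ) ≤ 0 := by
    by_contra h4
    push Not at h4
    nlinarith
  have h4 : (su μ).card = 0 := by
    have : (su μ).card ≤ 0 := by exact_mod_cast h3
    omega
  exact su_empty.1 (card_eq_zero.1 h4)

end Vale.Agent.P318.H891
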